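import Vale.Agent.P211.Global.PoincareProp
import Vale.Agent.P211.Global.Smoothing.Field

/-!
# P211: the scalar calculus, with every field proved
-/

open scoped ContDiff

namespace Vale.Agent.P211.Main

noncomputable section

variable {X : Type*} [TopologicalSpace X] [ChartedSpace Euc4 X]
  [IsManifold (modelWithCornersSelf ℝ Euc4) ∞ X] [T2Space X] [CompactSpace X]
  [MeasurableSpace X] [BorelSpace X] [PreconnectedSpace X]

/-- The scalar calculus of a closed connected four-manifold with Ricci tensor three times the
metric. -/
def geom {G : X → Euc4 → M4} (h : IsMetricAtlas G) (hE : IsEinsteinAtlas G) :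
    Analytic.ScalarGeom X :=
  Global.scalarGeom h hE (Global.poincareProp h) (Global.weakToStrongProp h)

end

end Vale.Agent.P211.Main
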