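import Vale.Agent.P211.Alg.Planes
import Vale.Agent.P211.Alg.SelfDual.Sanity
import Vale.Agent.P211.Alg.Spectral.Reaction

/-!
# P211: the algebra of the equality case
-/

open Matrix

namespace Vale.Agent.P211.Main

open SelfDual (pair IsCurvTen)
open Spectral (IsTop)

noncomputable section

/-- The excess of the reaction at top one. -/
def excess (W : M3) : ℝ := 12 - 2 * (W * W).trace

/-- The product of two round spheres, in a product frame. -/
def prodTen : Ten4 := fun i j k l =>
  3 * ((![![0, 1, 0, 0], ![-1, 0, 0, 0], ![0, 0, 0, 0], ![0, 0, 0, 0]] i j : ℝ) *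
        (![![0, 1, 0, 0], ![-1, 0, 0, 0], ![0, 0, 0, 0], ![0, 0, 0, 0]] k l : ℝ) +
      (![![0, 0, 0, 0], ![0, 0, 0, 0], ![0, 0, 0, 1], ![0, 0, -1, 0]] i j : ℝ) *
        (![![0, 0, 0, 0], ![0, 0, 0, 0], ![0, 0, 0, 1], ![0, 0, -1, 0]] k l : ℝ))

theorem excess_conj {R : M3} (hR : R.transpose * R = 1) (W : M3) :
    excess (Spectral.conj R W) = excess W := by
  rw [excess, excess, Spectral.conj_mul hR, Spectral.trace_conj hR]

theorem excess_diagonal (w : Fin 3 → ℝ) :
    excess (diagonal w) = 12 - 2 * (w 0 ^ 2 + w 1 ^ 2 + w 2 ^ 2) := by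
  simp [excess, Matrix.trace, Fin.sum_univ_three]
  ring

theorem excess_nonneg {W : M3} (hW : W.IsSymm) (htr : W.trace = 0) (hx : IsTop W 1) :
    0 ≤ excess W := by
  obtain ⟨R, w, hR, rfl, -, h1, i, hi⟩ :=
    Spectral.exists_top_data (a := 5) hW (Spectral.posDef_shift hW htr hx (by norm_num)) hx
  rw [Spectral.trace_conj hR, trace_diagonal, Fin.sum_univ_three] at htr
  rw [excess_conj hR, excess_diagonal]
  fin_cases i <;> simp at hi <;>
    nlinarith [mul_nonneg (h1 0) (h1 1), mul_nonneg (h1 0) (h1 2), mul_nonneg (h1 1) (h1 2)]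

/-- The reaction at top one exceeds zero by the excess. -/
theorem excess_le_DF_react {a : ℝ} {k : ℕ} (hk : 1 ≤ k) {W : M3} (hW : W.IsSymm)
    (hpd : (Spectral.shift a W).PosDef) (htr : W.trace = 0) (hx : IsTop W 1) :
    excess W - 18 * (a + 1) * ((3 : ℝ) ^ (1 / k : ℝ) - 1) ≤
      Spectral.DF a k W (Spectral.react W) := by
  have he := excess_nonneg hW htr hx
  obtain ⟨R, w, hR, rfl, hb, h1, hx0⟩ := Spectral.exists_top_data hW hpd hx
  rw [excess_conj hR] at he ⊢
  rw [Spectral.react_conj hR, Spectral.DF_conj hR, Spectral.DF_diagonal]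
  have hr : ∀ i, Spectral.react (diagonal w) i i ≤ -excess (diagonal w) + 18 * (w i + 1) := by
    intro i
    have e : Spectral.react (diagonal w) i i =
        -excess (diagonal w) + 6 * (w i + 1) * (2 - w i) := by
      rw [excess_diagonal]
      simp [Spectral.react, Matrix.trace, Fin.sum_univ_three]
      ring
    rw [e]
    nlinarith [h1 i, mul_nonneg (h1 i) (h1 i)]
  have h2 : ∑ i, Spectral.wt a k w i * Spectral.react (diagonal w) i i ≤
      -excess (diagonal w) * ∑ i, Spectral.wt a k w i +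
        18 * ∑ i, Spectral.wt a k w i * (w i + 1) := by
    rw [Finset.mul_sum, Finset.mul_sum, ← Finset.sum_add_distrib]
    refine Finset.sum_le_sum fun i _ => ?_
    refine (mul_le_mul_of_nonneg_left (hr i) (Spectral.wt_nonneg hb i)).trans_eq ?_
    ring
  nlinarith [Spectral.sum_wt_gap_le hb hk hx0, Spectral.one_le_sum_wt hb hk]

/-- Without excess, the eigenvalues are minus one twice and two. -/
theorem excess_zero {W : M3} (hW : W.IsSymm) (htr : W.trace = 0) (hx : IsTop W 1)
    (he : excess W = 0) :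
    W * W = W + (2 : ℝ) • (1 : M3) ∧
      ∃ u : Fin 3 → ℝ, u ⬝ᵥ u = 1 ∧ W + 1 = (3 : ℝ) • vecMulVec u u := by
  obtain ⟨R, w, hR, rfl, -, h1, hx0⟩ :=
    Spectral.exists_top_data (a := 5) hW (Spectral.posDef_shift hW htr hx (by norm_num)) hx
  rw [Spectral.trace_conj hR, trace_diagonal, Fin.sum_univ_three] at htr
  rw [excess_conj hR, excess_diagonal] at he
  have hj : ∃ j, ∀ i, w i = if i = j then 2 else -1 := by
    obtain ⟨i, hi⟩ := hx0
    have hsq : w 0 * w 1 + w 0 * w 2 + w 1 * w 2 = -3 := by nlinarith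
    fin_cases i <;> simp at hi
    · have h12 : (w 1 - 2) * (w 1 + 1) = 0 := by nlinarith
      rcases mul_eq_zero.1 h12 with h | h
      · exact ⟨1, fun i => by fin_cases i <;> simp <;> linarith⟩
      · exact ⟨2, fun i => by fin_cases i <;> simp <;> linarith⟩
    · have h12 : (w 0 - 2) * (w 0 + 1) = 0 := by nlinarith
      rcases mul_eq_zero.1 h12 with h | h
      · exact ⟨0, fun i => by fin_cases i <;> simp <;> linarith⟩
      · exact ⟨2, fun i => by fin_cases i <;> simp <;> linarith⟩
    · have h12 : (w 0 - 2) * (w 0 + 1) = 0 := by nlinarith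
      rcases mul_eq_zero.1 h12 with h | h
      · exact ⟨0, fun i => by fin_cases i <;> simp <;> linarith⟩
      · exact ⟨1, fun i => by fin_cases i <;> simp <;> linarith⟩
  obtain ⟨j, hj⟩ := hj
  have hR' : R * R.transpose = 1 := mul_eq_one_comm.1 hR
  constructor
  · rw [Spectral.conj_mul hR, diagonal_mul_diagonal]
    have e : (diagonal fun i => w i * w i) = diagonal w + (2 : ℝ) • (1 : M3) := by
      ext p q
      rcases eq_or_ne p q with rfl | hpq
      · simp [hj p]
        split_ifs <;> norm_num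
      · simp [hpq]
    rw [e]
    simp [Spectral.conj, Matrix.mul_add, Matrix.add_mul, hR']
  · refine ⟨fun i => R i j, ?_, ?_⟩
    · have := congrFun (congrFun hR j) j
      simpa [mul_apply, dotProduct] using this
    · have e : Spectral.conj R (diagonal w) + 1 = Spectral.conj R (diagonal w + 1) := by
        simp [Spectral.conj, Matrix.mul_add, Matrix.add_mul, hR']
      rw [e]
      ext p q
      simp only [Spectral.conj, mul_apply, transpose_apply, Matrix.add_apply, Matrix.smul_apply,
        vecMulVec_apply, smul_eq_mul, Fin.sum_univ_three, diagonal_apply, one_apply, hj]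
      fin_cases j <;> simp <;> ring

/-- A tensor skew in both pairs vanishes with its four blocks. -/
theorem ten_eq_zero {D : Ten4} (h12 : ∀ i j k l, D j i k l = -D i j k l)
    (h34 : ∀ i j k l, D i j l k = -D i j k l)
    (hpp : block D Jp Jp = 0) (hpm : block D Jp Jm = 0) (hmp : block D Jm Jp = 0)
    (hmm : block D Jm Jm = 0) (i j k l : Fin 4) : D i j k l = 0 := by
  have hA : ∀ k l, (Matrix.of fun i j => D i j k l : M4).transpose =
      -Matrix.of fun i j => D i j k l := fun k l => by ext p q; simp [h12 p q]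
  have hz : ∀ J : Fin 3 → M4, block D J Jp = 0 → block D J Jm = 0 →
      ∀ a k l, pair (J a) (Matrix.of fun i j => D i j k l) = 0 := by
    intro J hp hm a k l
    set T : M4 := Matrix.of fun k l => pair (J a) (Matrix.of fun i j => D i j k l) with hT
    have hTs : T.transpose = -T := by
      ext p q
      simp [hT, pair, h34 _ _ p q]
    have hb : ∀ K b, pair (K b) T = 8 * block D J K a b := by
      intro K b
      simp only [block, pair, hT, of_apply, Finset.mul_sum]
      rw [Finset.sum_congr rfl fun x _ => Finset.sum_comm, Finset.sum_comm]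
      refine Finset.sum_congr rfl fun p _ => ?_
      rw [Finset.sum_congr rfl fun x _ => Finset.sum_comm, Finset.sum_comm]
      refine Finset.sum_congr rfl fun q _ => ?_
      exact Finset.sum_congr rfl fun r _ => Finset.sum_congr rfl fun s _ => by ring
    show T k l = 0
    rw [SelfDual.decomp hTs]
    simp [hb, hp, hm, Matrix.sum_apply]
  show (Matrix.of fun i j => D i j k l : M4) i j = 0
  rw [SelfDual.decomp (hA k l)]
  simp [hz Jp hpp hpm, hz Jm hmp hmm, Matrix.sum_apply]

/-- The block of a product of two two-forms. -/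
theorem block_outer (c : ℝ) (A B : M4) (J K : Fin 3 → M4) (a b : Fin 3) :
    block (fun i j k l => c * (A i j * B k l)) J K a b =
      c / 8 * (pair (J a) A * pair (K b) B) := by
  simp only [block, pair, of_apply, Finset.mul_sum, Finset.sum_mul]
  rw [Finset.sum_congr rfl fun p _ => Finset.sum_congr rfl fun q _ =>
    Finset.sum_congr rfl fun r _ => Finset.sum_congr rfl fun s _ =>
      show 1 / 8 * (J a p q * (c * (A p q * B r s)) * K b r s) =
        c / 8 * (J a p q * A p q * (K b r s * B r s)) by ring]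
  rw [Finset.sum_congr rfl fun p _ => Finset.sum_comm, Finset.sum_comm]
  refine Finset.sum_congr rfl fun r _ => ?_
  rw [Finset.sum_congr rfl fun p _ => Finset.sum_comm, Finset.sum_comm]

theorem prod_identity (a b c d : Fin 4) :
    3 / 2 * (((!![0, -1, 0, 0; 1, 0, 0, 0; 0, 0, 0, -1; 0, 0, 1, 0] : M4) a b) *
        (!![0, -1, 0, 0; 1, 0, 0, 0; 0, 0, 0, -1; 0, 0, 1, 0] : M4) c d +
      (!![0, 1, 0, 0; -1, 0, 0, 0; 0, 0, 0, -1; 0, 0, 1, 0] : M4) a b *
        (!![0, 1, 0, 0; -1, 0, 0, 0; 0, 0, 0, -1; 0, 0, 1, 0] : M4) c d) = prodTen a b c d := by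
  fin_cases a <;> fin_cases b <;> fin_cases c <;> fin_cases d <;> norm_num [prodTen]

/-- The two half-structures give a product frame. -/
theorem exists_product_frame {A B : M4} (hA : A.transpose = -A) (hB : B.transpose = -B)
    (hA2 : A * A = -1) (hB2 : B * B = -1) (hAB : A * B = B * A) (h1 : A - B ≠ 0) (h2 : A + B ≠ 0) :
    ∃ T : M4, T.transpose * T = 1 ∧
      inFrame T (fun i j k l => 3 / 2 * (A i j * A k l + B i j * B k l)) = prodTen := by
  have unit : ∀ M : M4, M ≠ 0 → ∃ v : Fin 4 → ℝ,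
      (M *ᵥ v) ⬝ᵥ (M *ᵥ v) = 1 := by
    intro M hM
    obtain ⟨m, hm⟩ : ∃ m, M *ᵥ Pi.single m 1 ≠ 0 := by
      by_contra hcon
      push Not at hcon
      exact hM (ext_of_mulVec_single fun m => by rw [hcon m, zero_mulVec])
    set z := M *ᵥ Pi.single m 1
    have hpos : 0 < z ⬝ᵥ z :=
      lt_of_le_of_ne (Finset.sum_nonneg fun i _ => mul_self_nonneg _)
        (Ne.symm fun h => hm (dotProduct_self_eq_zero.1 h))
    refine ⟨(Real.sqrt (z ⬝ᵥ z))⁻¹ • Pi.single m 1, ?_⟩
    rw [mulVec_smul, smul_dotProduct, dotProduct_smul, smul_eq_mul, smul_eq_mul, ← mul_assoc,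
      ← mul_inv, Real.mul_self_sqrt hpos.le, inv_mul_cancel₀ hpos.ne']
  obtain ⟨v, hv⟩ := unit _ h1
  obtain ⟨v', hv'⟩ := unit _ h2
  set e := (A - B) *ᵥ v with he
  set f := (A + B) *ᵥ v' with hf
  have hskew : ∀ {M : M4}, M.transpose = -M → ∀ x y : Fin 4 → ℝ,
      x ⬝ᵥ M *ᵥ y = -(y ⬝ᵥ M *ᵥ x) := by
    intro M hM x y
    rw [dotProduct_mulVec, ← mulVec_transpose, hM, neg_mulVec, neg_dotProduct, dotProduct_comm]
  have hBe : B *ᵥ e = -(A *ᵥ e) := by
    rw [he, mulVec_mulVec, mulVec_mulVec, Matrix.mul_sub, Matrix.mul_sub, hA2, hB2, hAB,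
      ← neg_mulVec, neg_sub]
  have hBf : B *ᵥ f = A *ᵥ f := by
    rw [hf, mulVec_mulVec, mulVec_mulVec, Matrix.mul_add, Matrix.mul_add, hA2, hB2, hAB, add_comm]
  have hef : e ⬝ᵥ f = 0 := by
    have e0 : (A - B).transpose * (A + B) = 0 := by
      rw [transpose_sub, hA, hB]
      simp only [Matrix.mul_add, Matrix.sub_mul, Matrix.neg_mul, hA2, hB2, hAB]
      abel
    rw [he, hf, dotProduct_mulVec, ← mulVec_transpose, mulVec_mulVec]
    rw [show (A + B).transpose * (A - B) = ((A - B).transpose * (A + B)).transpose by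
      rw [transpose_mul, transpose_transpose], e0]
    simp
  have hAA : ∀ x y : Fin 4 → ℝ, (A *ᵥ x) ⬝ᵥ (A *ᵥ y) = x ⬝ᵥ y := by
    intro x y
    rw [dotProduct_mulVec, ← mulVec_transpose, mulVec_mulVec, hA, Matrix.neg_mul, hA2, neg_neg,
      one_mulVec]
  have hee' : e ⬝ᵥ A *ᵥ e = 0 := by linarith [hskew hA e e]
  have hff' : f ⬝ᵥ A *ᵥ f = 0 := by linarith [hskew hA f f]
  have heAf : e ⬝ᵥ A *ᵥ f = 0 := by
    have h3 := hskew hB e f
    rw [hBe, hBf, dotProduct_neg, neg_neg] at h3
    linarith [hskew hA e f]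
  have hfAe : f ⬝ᵥ A *ᵥ e = 0 := by linarith [hskew hA e f]
  set T : M4 := (Matrix.of ![e, A *ᵥ e, f, A *ᵥ f]).transpose with hT
  have hcol : ∀ p q, (T.transpose * T) p q =
      ![e, A *ᵥ e, f, A *ᵥ f] p ⬝ᵥ ![e, A *ᵥ e, f, A *ᵥ f] q := fun p q => by
    simp [hT, mul_apply, dotProduct]
  have hTT : T.transpose * T = 1 := by
    ext p q
    rw [hcol]
    fin_cases p <;> fin_cases q <;>
      simp [hv, hv', hef, hAA, hee', hff', heAf, hfAe, dotProduct_comm f e,
        dotProduct_comm (A *ᵥ e) e, dotProduct_comm (A *ᵥ e) f, dotProduct_comm (A *ᵥ f) e,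
        dotProduct_comm (A *ᵥ f) f]
  have hT' : ∀ (M : M4) (M0 : M4), M * T = T * M0 → T.transpose * M * T = M0 := by
    intro M M0 h
    rw [Matrix.mul_assoc, h, ← Matrix.mul_assoc, hTT, Matrix.one_mul]
  have hmulcol : ∀ (M : M4) p q, (M * T) p q = (M *ᵥ ![e, A *ᵥ e, f, A *ᵥ f] q) p := fun M p q => by
    simp [hT, mul_apply, mulVec, dotProduct]
  have hAT : T.transpose * A * T =
      !![0, -1, 0, 0; 1, 0, 0, 0; 0, 0, 0, -1; 0, 0, 1, 0] := by
    refine hT' _ _ ?_
    ext p q
    rw [hmulcol]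
    fin_cases q <;>
      simp [hT, mul_apply, Fin.sum_univ_four, mulVec_mulVec, hA2, neg_mulVec]
  have hBT : T.transpose * B * T =
      !![0, 1, 0, 0; -1, 0, 0, 0; 0, 0, 0, -1; 0, 0, 1, 0] := by
    refine hT' _ _ ?_
    ext p q
    rw [hmulcol]
    have hBAe : B *ᵥ (A *ᵥ e) = e := by
      rw [mulVec_mulVec, ← hAB, ← mulVec_mulVec, hBe, mulVec_neg, mulVec_mulVec, hA2, neg_mulVec,
        one_mulVec, neg_neg]
    have hBAf : B *ᵥ (A *ᵥ f) = -f := by
      rw [mulVec_mulVec, ← hAB, ← mulVec_mulVec, hBf, mulVec_mulVec, hA2, neg_mulVec, one_mulVec]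
    fin_cases q <;>
      simp [hT, mul_apply, Fin.sum_univ_four, hBe, hBf, hBAe, hBAf]
  refine ⟨T, hTT, ?_⟩
  have key : ∀ (M : M4) a b c d, ∑ i, ∑ j, ∑ k, ∑ l,
      3 / 2 * (M i j * M k l) * T i a * T j b * T k c * T l d =
      3 / 2 * ((T.transpose * M * T) a b * (T.transpose * M * T) c d) := by
    intro M a b c d
    have e1 : ∀ p q, (T.transpose * M * T) p q = ∑ i, ∑ j, M i j * T i p * T j q := fun p q => by
      simp only [mul_apply, transpose_apply, Finset.sum_mul]
      rw [Finset.sum_comm]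
      exact Finset.sum_congr rfl fun i _ => Finset.sum_congr rfl fun j _ => by ring
    simp only [e1, Finset.mul_sum, Finset.sum_mul]
    rw [Finset.sum_congr rfl fun i _ => Finset.sum_comm, Finset.sum_comm]
    refine Finset.sum_congr rfl fun k _ => ?_
    rw [Finset.sum_congr rfl fun i _ => Finset.sum_comm, Finset.sum_comm]
    refine Finset.sum_congr rfl fun l _ => ?_
    exact Finset.sum_congr rfl fun i _ => Finset.sum_congr rfl fun j _ => by ring
  funext a b c d
  simp only [inFrame, mul_add, add_mul, Finset.sum_add_distrib, key, hAT, hBT]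
  rw [← mul_add]
  exact prod_identity a b c d

/-- A curvature tensor with both Weyl halves at eigenvalues minus one twice and two is that of a
product of two round spheres. -/
theorem exists_prod_form {R : Ten4} (hR : IsCurvTen R)
    (hric : ∀ i k, SelfDual.ricTen R i k = 3 * (1 : M4) i k) {u v : Fin 3 → ℝ}
    (hu : u ⬝ᵥ u = 1) (hv : v ⬝ᵥ v = 1) (hp : block R Jp Jp = (3 : ℝ) • vecMulVec u u)
    (hm : block R Jm Jm = (3 : ℝ) • vecMulVec v v) :
    ∃ T : M4, T.transpose * T = 1 ∧ inFrame T R = prodTen := by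
  set A := ∑ a, u a • Jp a with hA
  set B := ∑ b, v b • Jm b with hB
  have pA : ∀ a, pair (Jp a) A = 4 * u a ∧ pair (Jm a) A = 0 := by
    intro a
    constructor
    · rw [hA, SelfDual.pair_sum_right]
      simp [SelfDual.pair_Jp_Jp, one_apply, mul_comm]
    · rw [hA, SelfDual.pair_sum_right]
      simp [SelfDual.pair_comm (Jm a), SelfDual.pair_Jp_Jm]
  have pB : ∀ a, pair (Jp a) B = 0 ∧ pair (Jm a) B = 4 * v a := by
    intro a
    constructor
    · rw [hB, SelfDual.pair_sum_right]
      simp [SelfDual.pair_Jp_Jm]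
    · rw [hB, SelfDual.pair_sum_right]
      simp [SelfDual.pair_Jm_Jm, one_apply, mul_comm]
  have hAs : A.transpose = -A := by simp [hA, transpose_sum, SelfDual.isTriple_Jp.skew]
  have hBs : B.transpose = -B := by simp [hB, transpose_sum, SelfDual.isTriple_Jm.skew]
  have hA2 : A * A = -1 := by
    simp only [hA, Spectral.comb_mul SelfDual.isTriple_Jp]
    simp only [dotProduct, Fin.sum_univ_three] at hu
    rw [hu]
    module
  have hB2 : B * B = -1 := by
    simp only [hB, Spectral.comb_mul SelfDual.isTriple_Jm]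
    simp only [dotProduct, Fin.sum_univ_three] at hv
    rw [hv]
    module
  have hAB : A * B = B * A := by
    simp only [hA, hB, Finset.sum_mul, Finset.mul_sum, Matrix.smul_mul, Matrix.mul_smul,
      SelfDual.Jp_mul_Jm, smul_smul]
    rw [Finset.sum_comm]
    exact Finset.sum_congr rfl fun i _ => Finset.sum_congr rfl fun j _ => by rw [mul_comm]
  obtain ⟨a, ha⟩ : ∃ a, u a ≠ 0 := by
    by_contra hcon
    push Not at hcon
    simp [dotProduct, hcon] at hu
  have hne : A - B ≠ 0 ∧ A + B ≠ 0 := by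
    constructor <;> intro h
    · have e := congrArg (pair (Jp a)) (sub_eq_zero.1 h)
      rw [(pA a).1, (pB a).1] at e
      exact ha (by linarith)
    · have e := congrArg (pair (Jp a)) (eq_neg_of_add_eq_zero_left h)
      rw [(pA a).1, show pair (Jp a) (-B) = -pair (Jp a) B by simp [pair]] at e
      rw [(pB a).1] at e
      exact ha (by linarith)
  obtain ⟨T, hT, hTR⟩ := exists_product_frame hAs hBs hA2 hB2 hAB hne.1 hne.2
  refine ⟨T, hT, ?_⟩
  rw [← hTR]
  congr 1
  funext i j k l
  refine sub_eq_zero.1 (ten_eq_zero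
    (D := fun i j k l => R i j k l - 3 / 2 * (A i j * A k l + B i j * B k l))
    (fun i j k l => by
      rw [hR.anti12 i j k l, SelfDual.skew_apply hAs i j, SelfDual.skew_apply hBs i j]; ring)
    (fun i j k l => by
      rw [hR.anti34 i j k l, SelfDual.skew_apply hAs k l, SelfDual.skew_apply hBs k l]; ring)
    ?_ ?_ ?_ ?_ i j k l)
  all_goals
    have hsplit : ∀ J K a b,
        block (fun i j k l => R i j k l - 3 / 2 * (A i j * A k l + B i j * B k l)) J K a b =
          block R J K a b - (block (fun i j k l => 3 / 2 * (A i j * A k l)) J K a b +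
            block (fun i j k l => 3 / 2 * (B i j * B k l)) J K a b) := fun J K a b => by
      simp only [block, of_apply, ← mul_add, ← Finset.sum_add_distrib, mul_sub, sub_mul,
        Finset.sum_sub_distrib]
      congr 1
      exact congrArg _ (Finset.sum_congr rfl fun _ _ => Finset.sum_congr rfl fun _ _ =>
        Finset.sum_congr rfl fun _ _ => Finset.sum_congr rfl fun _ _ => by ring)
    have hmix := ((SelfDual.ricTen_eq_three_iff hR).1 hric).1
    ext a b
    rw [hsplit, block_outer, block_outer]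
    simp only [(pA _).1, (pA _).2, (pB _).1, (pB _).2, hp, hm, hmix, Matrix.smul_apply,
      vecMulVec_apply, smul_eq_mul, Matrix.zero_apply]
  · ring
  · ring
  · have hs : block R Jm Jp a b = block R Jp Jm b a := by
      have hs : (SelfDual.flat R).transpose = SelfDual.flat R := by
        ext p q
        exact hR.comp_comm p q
      rw [SelfDual.block_eq_flat, SelfDual.block_eq_flat, dotProduct_mulVec, ← mulVec_transpose,
        hs, dotProduct_comm]
    rw [hs, hmix]
    simp
  · ring

end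

end Vale.Agent.P211.Main
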