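import Vale.Agent.P211.Main.Weyl
import Vale.Agent.P211.Main.RigidAlg
import Vale.Agent.P211.Global.Geom

/-!
# P211: both tops equal to one force the product of two spheres
-/

open Matrix MeasureTheory Filter Topology
open scoped ContDiff

namespace Vale.Agent.P211.Main

open Global

noncomputable section

/-- A Laplacian only sees the function on an open set. -/
theorem lap_congr {G : Euc4 → M4} {U : Set Euc4} (hU : IsOpen U) {f g : Euc4 → ℝ}
    (hfg : ∀ z ∈ U, f z = g z) {y : Euc4} (hy : y ∈ U) :
    Local.lap G f y = Local.lap G g y := by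
  have e1 : ∀ i, ∀ z ∈ U, pd f i z = pd g i z := fun i z hz => Local.pd_congr hU hz hfg i
  simp only [Local.lap, e1 _ _ hy]
  refine Finset.sum_congr rfl fun i _ => Finset.sum_congr rfl fun j _ => ?_
  rw [Local.pd_congr hU hy (e1 j) i]

theorem symm_eq_zero {H : M3} (hH : H.IsSymm) (h : (H * H).trace = 0) : H = 0 := by
  rw [← trace_conjTranspose_mul_self_eq_zero_iff,
    conjTranspose_eq_transpose_of_trivial, hH.eq, h]

/-- A Weyl half with constant eigenvalues minus one, minus one, two is parallel. -/
theorem dWf_eq_zero {G P : Euc4 → M4} {U : Set Euc4} (hG : Local.IsMetricOn G U)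
    (hP : Local.IsFrameOn G P U) (hE : IsEinsteinThree G U) {J K : Fin 3 → M4}
    (hJ : Local.IsSplit J K) (hs : ∀ z ∈ U, (Local.wB J G P z).IsSymm)
    (htr : ∀ z ∈ U, (Local.wB J G P z).trace = 0)
    (hadm : ∀ z ∈ U, (Spectral.shift 5 (Local.wB J G P z)).PosDef)
    (hW : ∀ z ∈ U, Local.wB J G P z * Local.wB J G P z = Local.wB J G P z + (2 : ℝ) • 1)
    {y : Euc4} (hy : y ∈ U) (m : Fin 4) : Local.dWf J G P y m = 0 := by
  have hq : ∀ z ∈ U, Spectral.trPow 5 2 (Local.wB J G P z) = 81 := by
    intro z hz
    rw [Spectral.trPow, pow_two, Spectral.shift]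
    simp [Matrix.sub_mul, Matrix.mul_sub, trace_sub, trace_add, hW z hz, htr z hz, trace_smul,
      trace_one]
    norm_num
  have hpos : ∀ z ∈ U, 0 < Spectral.trPow 5 2 (Local.wB J G P z) := fun z hz => by
    rw [hq z hz]; norm_num
  set f := fun z => Spectral.F 5 2 (Local.wB J G P z)
  have hc : ∀ z ∈ U, f z = Spectral.F 5 2 (Local.wB J G P y) := fun z hz => by
    simp only [f, Spectral.F, hq z hz, hq y hy]
  have hpd : ∀ i, pd f i y = 0 := fun i => by
    rw [Local.pd_congr hG.isOpen hy hc i, Local.pd_const]
  have hDF : ∀ i, Spectral.DF 5 2 (Local.wB J G P y) (Local.dW J G P i y) = 0 := fun i => by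
    rw [← Local.pd_F_wB hG hP one_le_two hpos hy i]
    exact hpd i
  have hDFm : ∀ n, Spectral.DF 5 2 (Local.wB J G P y) (Local.dWf J G P y n) = 0 := fun n => by
    simp [Local.dWf, hDF, Spectral.DF_sum, Spectral.DF_smul]
  have hlap : Local.lap G f y = 0 := by
    rw [lap_congr hG.isOpen hc hy]
    have h0 : ∀ j, pd (fun _ : Euc4 => Spectral.F 5 2 (Local.wB J G P y)) j = fun _ => 0 :=
      fun j => funext fun z => Local.pd_const _ _
    simp [Local.lap, h0, Local.pd_const]
  have hsum := Local.lap_F hG hP (a := 5) (k := 2) one_le_two hpos (J := J) hy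
  rw [hlap, Local.weitzenboeck hG hP hy hE hJ (hs y hy) (htr y hy)] at hsum
  have hreact : Spectral.react (Local.wB J G P y) = 0 := by
    simp [Spectral.react, hW y hy, trace_add, htr y hy, trace_smul, trace_one, smul_add, smul_smul]
    norm_num
  have hDF0 : Spectral.DF 5 2 (Local.wB J G P y) 0 = 0 := by simp [Spectral.DF]
  rw [hreact, hDF0, add_zero] at hsum
  have hsd : ∀ n, (Local.dWf J G P y n).IsSymm := fun n => by
    rw [Local.dWf_eq hG hP hy hJ]
    exact Local.block_symm (Local.isCurvTen_covFrame hG hy n) J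
  have hz : Spectral.D2F 5 2 (Local.wB J G P y) (Local.dWf J G P y m) = 0 :=
    (Finset.sum_eq_zero_iff_of_nonneg fun n _ =>
      Spectral.D2F_nonneg le_rfl (hs y hy) (hadm y hy) (hsd n)).1 hsum.symm m (Finset.mem_univ m)
  set W := Local.wB J G P y
  set H := Local.dWf J G P y m
  have h1 := hDFm m
  simp only [Spectral.DF, Spectral.grad, Matrix.smul_mul, trace_smul, neg_eq_zero, smul_eq_mul,
    mul_eq_zero] at h1
  norm_num [Spectral.D2F, Finset.sum_range_one] at hz
  norm_num at h1
  rw [h1.resolve_left (Real.rpow_pos_of_pos (hpos y hy) _).ne'] at hz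
  simp at hz
  exact symm_eq_zero (hsd m) (hz.resolve_left (Real.rpow_pos_of_pos (hpos y hy) _).ne')

/-- A tensor with vanishing components in a frame vanishes. -/
theorem inFrame_eq_zero {P : M4} (hP : IsUnit P.det) {C : Ten4}
    (h : ∀ a b c d, inFrame P C a b c d = 0) (i j k l : Fin 4) : C i j k l = 0 := by
  have e : inFrame (P * P⁻¹) C = inFrame P⁻¹ (inFrame P C) := SelfDual.inFrame_mul _ _ _
  have hz : inFrame P C = fun _ _ _ _ => 0 :=
    funext fun a => funext fun b => funext fun c => funext fun d => h a b c d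
  rw [mul_nonsing_inv _ hP, hz] at e
  have e' := congrFun (congrFun (congrFun (congrFun e i) j) k) l
  simpa [inFrame, one_apply] using e'

variable {X : Type*} [TopologicalSpace X] [ChartedSpace Euc4 X]
  [IsManifold (modelWithCornersSelf ℝ Euc4) ∞ X]
variable {G : X → Euc4 → M4} (h : IsMetricAtlas G) (hor : IsOrientedAtlas X)
variable (hE : IsEinsteinAtlas G) (hK : IsSecNonnegAtlas G)
include hor hE hK

omit hE hK in
/-- The excess as a function on the manifold is smooth. -/
theorem smooth_excess {J : Fin 3 → M4} (hJ : IsHalf J) :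
    Smooth fun x => excess (weylAt h J x) := by
  intro p
  refine ContDiffOn.congr
    (f := fun y => excess (Local.wB J (G p) (frameAt h p) y)) ?_ fun y hy => ?_
  · have hs := Local.smooth_wB (J := J) (isMetricOn h p) (isFrameOn_frameAt h p)
    simp only [excess, Matrix.trace, Matrix.diag, mul_apply]
    exact contDiffOn_const.sub (contDiffOn_const.mul
      (ContDiffOn.sum fun i _ => ContDiffOn.sum fun j _ => (hs i j).mul (hs j i)))
  · obtain ⟨c, hc, e⟩ := weylAt_conj h hor hJ ((chartAt Euc4 p).map_target hy)
    rw [rd, e, excess_conj hc, (chartAt Euc4 p).right_inv hy]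

/-- The Laplacian of the approximate top dominates the excess where the top is one. -/
theorem excess_le_lap {J : Fin 3 → M4} (hJ : IsHalf J) (htop : ∀ x, top h J x = 1) {k : ℕ}
    (hk : 2 ≤ k) (x : X) :
    excess (weylAt h J x) - 108 * ((3 : ℝ) ^ (1 / k : ℝ) - 1) ≤
      (hess h (spec h 5 k J) x).trace := by
  have hx := mem_chart_source Euc4 x
  set y := chartAt Euc4 x x
  have hy : y ∈ (chartAt Euc4 x).target := (chartAt Euc4 x).map_source hx
  have hG := isMetricOn h x
  have hP := isFrameOn_frameAt h x
  obtain ⟨K, hsplit⟩ : ∃ K, Local.IsSplit J K := by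
    rcases hJ with rfl | rfl
    exacts [⟨_, Local.isSplit_Jp⟩, ⟨_, Local.isSplit_Jm⟩]
  have hfacts := fun z hz => wB_top h hE hK hJ x (y := z) hz
  have hpos : ∀ z ∈ (chartAt Euc4 x).target,
      0 < Spectral.trPow 5 k (Local.wB J (G x) (frameAt h x) z) := fun z hz => by
    obtain ⟨h1, h2, t, ht, -, ht2⟩ := hfacts z hz
    exact Spectral.trPow_pos h1 (Spectral.posDef_shift h1 h2 ht (by linarith))
  obtain ⟨h1, h2, t, ht, -, ht2⟩ := hfacts y hy
  have hpd := Spectral.posDef_shift (a := 5) h1 h2 ht (by linarith)
  have e1 : t = 1 := by rw [← htop x]; exact isTop_unique ht (top_spec h hE hK hJ x)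
  subst e1
  rw [trace_hess h hx (smooth_spec h hor hE hK (by norm_num) k hJ),
    lap_congr (chartAt Euc4 x).open_target (fun z hz => rd_spec h hor 5 k hJ x hz) hy,
    Local.lap_F hG hP (by omega) hpos hy, Local.weitzenboeck hG hP hy (hE x) hsplit h1 h2]
  have hnn : 0 ≤ ∑ m, Spectral.D2F 5 k (Local.wB J (G x) (frameAt h x) y)
      (Local.dWf J (G x) (frameAt h x) y m) :=
    Finset.sum_nonneg fun m _ => Spectral.D2F_nonneg hk h1 hpd (by
      rw [Local.dWf_eq hG hP hy hsplit]
      exact Local.block_symm (Local.isCurvTen_covFrame hG hy m) J)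
  have h3 := excess_le_DF_react (k := k) (by omega) h1 hpd h2 ht
  show excess (Local.wB J (G x) (frameAt h x) y) - _ ≤ _
  linarith

variable [T2Space X] [CompactSpace X] [MeasurableSpace X] [BorelSpace X]

/-- Where the top is one, the excess vanishes. -/
theorem excess_eq_zero {J : Fin 3 → M4} (hJ : IsHalf J) (htop : ∀ x, top h J x = 1) (x : X) :
    excess (weylAt h J x) = 0 := by
  have := isFiniteMeasure_vol h
  have := isOpenPosMeasure_vol h
  have hc : Continuous fun x => excess (weylAt h J x) :=
    continuous_of_smooth (smooth_excess h hor hJ)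
  have hnn : ∀ x, 0 ≤ excess (weylAt h J x) := by
    intro x
    obtain ⟨h1, h2, -⟩ :=
      wB_top h hE hK hJ x ((chartAt Euc4 x).map_source (mem_chart_source Euc4 x))
    exact excess_nonneg h1 h2 (htop x ▸ top_spec h hE hK hJ x)
  have hi := integrable_continuous h hc
  have hle : ∀ k : ℕ, 2 ≤ k → ∫ x, excess (weylAt h J x) ∂vol G ≤
      108 * ((3 : ℝ) ^ (1 / k : ℝ) - 1) * (vol G).real Set.univ := by
    intro k hk
    have hs := smooth_spec h hor hE hK (a := 5) (by norm_num) k hJ
    have hl : ∫ x, (hess h (spec h 5 k J) x).trace ∂vol G = 0 := by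
      have h1 : Smooth fun _ : X => (1 : ℝ) := fun p => contDiffOn_const
      have h0 : ∀ z, grad h (fun _ : X => (1 : ℝ)) z = 0 := fun z => by
        rw [Global.grad]
        have : dvec (rd z fun _ : X => (1 : ℝ)) (chartAt Euc4 z z) = 0 :=
          funext fun i => Local.pd_const (1 : ℝ) i
        rw [this, mulVec_zero]
      simpa [h0] using green h hs h1
    have key := integral_mono (hi.sub (integrable_const (108 * ((3 : ℝ) ^ (1 / k : ℝ) - 1))))
      (integrable_continuous h (continuous_of_smooth (smooth_trace h hs)))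
      fun z => excess_le_lap h hor hE hK hJ htop hk z
    rw [hl, integral_sub' hi (integrable_const _), integral_const, smul_eq_mul] at key
    linarith
  have hlim : Tendsto (fun k : ℕ => 108 * ((3 : ℝ) ^ (1 / k : ℝ) - 1) * (vol G).real Set.univ)
      atTop (𝓝 0) := by
    simpa using ((Spectral.tendsto_three_rpow.sub_const 1).const_mul 108).mul_const _
  have h0 : ∫ x, excess (weylAt h J x) ∂vol G = 0 :=
    le_antisymm (ge_of_tendsto hlim ((eventually_ge_atTop 2).mono fun k hk => hle k hk))
      (integral_nonneg hnn)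
  exact congrFun (hc.ae_eq_iff_eq (vol G) continuous_const |>.1
    ((integral_eq_zero_iff_of_nonneg hnn hi).1 h0)) x

/-- Where the top is one, the Weyl half has eigenvalues minus one twice and two in every chart. -/
theorem half_eq {J : Fin 3 → M4} (hJ : IsHalf J) (htop : ∀ x, top h J x = 1) (p : X) {y : Euc4}
    (hy : y ∈ (chartAt Euc4 p).target) :
    Local.wB J (G p) (frameAt h p) y * Local.wB J (G p) (frameAt h p) y =
        Local.wB J (G p) (frameAt h p) y + (2 : ℝ) • 1 ∧
      ∃ u : Fin 3 → ℝ, u ⬝ᵥ u = 1 ∧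
        Local.wB J (G p) (frameAt h p) y + 1 = (3 : ℝ) • vecMulVec u u := by
  have hx := (chartAt Euc4 p).map_target hy
  obtain ⟨h1, h2, -⟩ := wB_top h hE hK hJ p hy
  have ht := top_chart h hor hE hK hJ hx
  obtain ⟨c, hc, e⟩ := weylAt_conj h hor hJ hx
  have he := excess_eq_zero h hor hE hK hJ htop ((chartAt Euc4 p).symm y)
  rw [e, excess_conj hc, (chartAt Euc4 p).right_inv hy] at he
  rw [(chartAt Euc4 p).right_inv hy, htop] at ht
  exact excess_zero h1 h2 ht he

/-- If both tops are one, the metric is locally symmetric and its curvature is everywhere that of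
a product of two round two-spheres. -/
theorem rigid (hp : ∀ x, top h Jp x = 1) (hm : ∀ x, top h Jm x = 1) (p : X) {y : Euc4}
    (hy : y ∈ (chartAt Euc4 p).target) :
    (∀ m i j k l, covRiem (G p) y m i j k l = 0) ∧
      ∃ Q : M4, Q.transpose * G p y * Q = 1 ∧ inFrame Q (riem (G p) y) = prodTen := by
  have hG := isMetricOn h p
  have hP := isFrameOn_frameAt h p
  have hR := Local.isCurvTen_frameRiem hG hy (P := frameAt h p)
  have hric := Local.ricTen_frameRiem hG hP hy (hE p)
  have half : ∀ {J K}, IsHalf J → Local.IsSplit J K → (∀ x, top h J x = 1) → ∀ s,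
      Local.dW J (G p) (frameAt h p) s y = 0 := by
    intro J K hJ hsplit htop s
    have hfacts := fun z hz => wB_top h hE hK hJ p (y := z) hz
    have hz : ∀ m, Local.dWf J (G p) (frameAt h p) y m = 0 := fun m =>
      dWf_eq_zero hG hP (hE p) hsplit (fun z hz => (hfacts z hz).1) (fun z hz => (hfacts z hz).2.1)
        (fun z hz => by
          obtain ⟨h1, h2, t, ht, -, ht2⟩ := hfacts z hz
          exact Spectral.posDef_shift h1 h2 ht (by linarith))
        (fun z hz => (half_eq h hor hE hK hJ htop p hz).1) hy m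
    have hinv : frameAt h p y * ((frameAt h p y).transpose * G p y) = 1 :=
      Local.frame_mul_inv hP hy
    have e : ∑ m, ((frameAt h p y).transpose * G p y) m s • Local.dWf J (G p) (frameAt h p) y m =
        Local.dW J (G p) (frameAt h p) s y := by
      simp only [Local.dWf, Finset.smul_sum, smul_smul]
      rw [Finset.sum_comm]
      simp only [← Finset.sum_smul]
      have : ∀ t, ∑ m, ((frameAt h p y).transpose * G p y) m s * frameAt h p y t m =
          (1 : M4) t s := fun t => by
        rw [← hinv, Matrix.mul_apply]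
        exact Finset.sum_congr rfl fun m _ => mul_comm _ _
      simp [this, one_apply]
    rw [← e]
    simp [hz]
  constructor
  · intro m
    refine inFrame_eq_zero (P := frameAt h p y) (Ne.isUnit (hP.frame y hy).2.ne') ?_
    set C := inFrame (frameAt h p y) (covRiem (G p) y m) with hC
    have hCc : SelfDual.IsCurvTen C := (Local.isCurvTen_covRiem hG hy m).inFrame _
    have hp0 : block C Jp Jp = 0 := by
      rw [hC, ← Local.dW_eq hG hP hy Local.isSplit_Jp]
      exact half (.inl rfl) Local.isSplit_Jp hp m
    have hm0 : block C Jm Jm = 0 := by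
      rw [hC, ← Local.dW_eq hG hP hy Local.isSplit_Jm]
      exact half (.inr rfl) Local.isSplit_Jm hm m
    have hS : SelfDual.IsCurvTen SelfDual.sphereTen :=
      ⟨fun i j k l => by simp only [SelfDual.sphereTen]; ring,
        fun i j k l => by simp only [SelfDual.sphereTen]; ring,
        fun i j k l => by simp only [SelfDual.sphereTen, one_apply, eq_comm]; ring,
        fun i j k l => by simp only [SelfDual.sphereTen, one_apply, eq_comm]; ring⟩
    have hS3 : ∀ i k, SelfDual.ricTen SelfDual.sphereTen i k = 3 * (1 : M4) i k := by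
      intro i k
      simp [SelfDual.ricTen, SelfDual.sphereTen, one_apply, Finset.sum_sub_distrib]
      split_ifs <;> norm_num
    have hTc : SelfDual.IsCurvTen fun i j k l => C i j k l + SelfDual.sphereTen i j k l :=
      ⟨fun i j k l => by linarith [hCc.anti12 i j k l, hS.anti12 i j k l],
        fun i j k l => by linarith [hCc.anti34 i j k l, hS.anti34 i j k l],
        fun i j k l => by linarith [hCc.swap i j k l, hS.swap i j k l],
        fun i j k l => by linarith [hCc.bianchi i j k l, hS.bianchi i j k l]⟩
    have hT3 : ∀ i k, SelfDual.ricTen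
        (fun i j k l => C i j k l + SelfDual.sphereTen i j k l) i k = 3 * (1 : M4) i k := by
      intro i k
      have e : SelfDual.ricTen (fun i j k l => C i j k l + SelfDual.sphereTen i j k l) i k =
          SelfDual.ricTen C i k + SelfDual.ricTen SelfDual.sphereTen i k := Finset.sum_add_distrib
      rw [e, hS3, hC, Local.ricTen_inFrame_covRiem hG hP hy (hE p), zero_add]
    have hmix : block C Jp Jm = 0 := by
      have h1 := ((SelfDual.ricTen_eq_three_iff hTc).1 hT3).1
      have h2 := ((SelfDual.ricTen_eq_three_iff hS).1 hS3).1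
      ext a b
      have e : block (fun i j k l => C i j k l + SelfDual.sphereTen i j k l) Jp Jm a b =
          block C Jp Jm a b + block SelfDual.sphereTen Jp Jm a b := by
        simp only [block, of_apply, mul_add, add_mul, Finset.sum_add_distrib]
      rw [h1, h2] at e
      simpa using e.symm
    have hmix' : block C Jm Jp = 0 := by
      ext a b
      rw [Local.block_swap hCc Jp Jm b a, hmix]
      rfl
    exact ten_eq_zero hCc.anti12 hCc.anti34 hp0 hmix hmix' hm0
  · obtain ⟨-, u, hu, hWu⟩ := half_eq h hor hE hK (.inl rfl) hp p hy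
    obtain ⟨-, v, hv, hWv⟩ := half_eq h hor hE hK (.inr rfl) hm p hy
    rw [Local.wB, sub_add_cancel] at hWu hWv
    obtain ⟨T, hT, hTR⟩ := exists_prod_form hR hric hu hv hWu hWv
    refine ⟨frameAt h p y * T, ?_, ?_⟩
    · calc _ = T.transpose * ((frameAt h p y).transpose * G p y * frameAt h p y) * T := by
            simp only [transpose_mul, Matrix.mul_assoc]
        _ = 1 := by rw [(hP.frame y hy).1, Matrix.mul_one, hT]
    · rw [SelfDual.inFrame_mul]
      exact hTR

end

end Vale.Agent.P211.Main
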