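import Vale.Agent.P211.Main.Weyl

/-!
# P211: a top vanishes exactly where the Weyl half does
-/

open Matrix
open scoped ContDiff

namespace Vale.Agent.P211.Main

open Global

noncomputable section

theorem isTop_zero_iff {W : M3} (htr : W.trace = 0) :
    Spectral.IsTop W 0 ↔ W = 0 := by
  constructor
  · rintro ⟨hp, -⟩
    rw [zero_smul, add_zero] at hp
    exact hp.trace_eq_zero_iff.1 htr
  · rintro rfl
    simp [Spectral.IsTop, PosSemidef.zero]

theorem conj_eq_zero_iff {c W : M3} (hc : c.transpose * c = 1) :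
    Spectral.conj c W = 0 ↔ W = 0 := by
  refine ⟨fun h => ?_, fun h => by simp [h, Spectral.conj]⟩
  have e : c.transpose * Spectral.conj c W * c = W := by
    simp only [Spectral.conj, ← Matrix.mul_assoc, hc, Matrix.one_mul]
    rw [Matrix.mul_assoc, hc, Matrix.mul_one]
  rw [← e, h]
  simp

variable {X : Type*} [TopologicalSpace X] [ChartedSpace Euc4 X]
  [IsManifold (modelWithCornersSelf ℝ Euc4) ∞ X]
variable {G : X → Euc4 → M4} (h : IsMetricAtlas G) (hor : IsOrientedAtlas X)
variable (hE : IsEinsteinAtlas G) (hK : IsSecNonnegAtlas G)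
include hor hE hK

/-- The tops vanish exactly where the Weyl halves do, in any chart. -/
theorem top_zero_iff {p : X} {y : Euc4} (hy : y ∈ (chartAt Euc4 p).target) :
    (top h Jp ((chartAt Euc4 p).symm y) = 0 ↔ ¬ WpNeZeroAt (G p) y) ∧
      (top h Jm ((chartAt Euc4 p).symm y) = 0 ↔ ¬ WmNeZeroAt (G p) y) := by
  have hx := (chartAt Euc4 p).map_target hy
  have hP := (isFrameOn_frameAt h p).frame y hy
  have key : ∀ J, IsHalf J → (top h J ((chartAt Euc4 p).symm y) = 0 ↔
      Local.wB J (G p) (frameAt h p) y = 0) := by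
    intro J hJ
    have ht := top_chart h hor hE hK hJ hx
    rw [(chartAt Euc4 p).right_inv hy] at ht
    have htr := (wB_top h hE hK hJ p hy).2.1
    refine ⟨fun e => (isTop_zero_iff htr).1 (e ▸ ht), fun e => ?_⟩
    exact isTop_unique ht ((isTop_zero_iff htr).2 e)
  constructor
  · rw [key Jp (.inl rfl)]
    constructor
    · rintro h0 ⟨P, hP', hne⟩
      obtain ⟨⟨c, hc, -, e⟩, -⟩ := SelfDual.weyl_frame_change (riem (G p) y) hP hP'
      refine hne (sub_eq_zero.1 (e.trans ((conj_eq_zero_iff hc).2 h0)))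
    · intro h0
      by_contra hne
      exact h0 ⟨_, hP, fun e => hne (sub_eq_zero.2 e)⟩
  · rw [key Jm (.inr rfl)]
    constructor
    · rintro h0 ⟨P, hP', hne⟩
      obtain ⟨-, c, hc, -, e⟩ := SelfDual.weyl_frame_change (riem (G p) y) hP hP'
      refine hne (sub_eq_zero.1 (e.trans ((conj_eq_zero_iff hc).2 h0)))
    · intro h0
      by_contra hne
      exact h0 ⟨_, hP, fun e => hne (sub_eq_zero.2 e)⟩

end

end Vale.Agent.P211.Main
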