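import Vale.Agent.P211.Main.Barriers
import Vale.Agent.P211.Main.Vanish
import Vale.Agent.P211.Main.Rigid
import Vale.Agent.P211.Main.Instance

/-!
# P211: assembly

`ScalarDichotomy` is what the scalar argument (modules F and G of note 1326) has to prove.  It is
an interface: `classify_of_dichotomy` is not a hand-in until it is proved.
-/

open Matrix
open scoped ContDiff

namespace Vale.Agent.P211.Main

noncomputable section

/-- The output of the scalar argument: two continuous functions with sum at most two that are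
limits of smooth subsolving barriers are such that one vanishes or both are identically one. -/
def ScalarDichotomy {X : Type*} [TopologicalSpace X] [MeasurableSpace X]
    (S : Analytic.ScalarGeom X) : Prop :=
  ∀ x y : X → ℝ, Continuous x → Continuous y → (∀ z, 0 ≤ x z ∧ 0 ≤ y z ∧ x z + y z ≤ 2) →
    (∀ e₀ > 0, ∀ η > 0, ∃ l₁ l₂ : X → ℝ, S.Smooth l₁ ∧ S.Smooth l₂ ∧
      (∀ z, l₁ z ∈ Set.Icc (0 : ℝ) 2 ∧ l₂ z ∈ Set.Icc (0 : ℝ) 2) ∧
      (∀ z, Analytic.react (l₁ z) - e₀ ≤ S.lap l₁ z) ∧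
      (∀ z, Analytic.react (l₂ z) - e₀ ≤ S.lap l₂ z) ∧
      (∀ z, l₁ z ^ 3 + l₂ z ^ 3 ≤ 2 + η) ∧
      ∀ z, |l₁ z ^ 3 - x z| ≤ η ∧ |l₂ z ^ 3 - y z| ≤ η) →
    (∀ z, x z = 0) ∨ (∀ z, y z = 0) ∨ ((∀ z, x z = 1) ∧ ∀ z, y z = 1)

variable {X : Type*} [TopologicalSpace X] [ChartedSpace Euc4 X]
  [IsManifold (modelWithCornersSelf ℝ Euc4) ∞ X] [T2Space X] [CompactSpace X]
  [MeasurableSpace X] [BorelSpace X] [PreconnectedSpace X]

/-- Given the scalar dichotomy: one Weyl half vanishes identically, or the metric is locally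
symmetric with the curvature of a product of two round two-spheres. -/
theorem classify_of_dichotomy {G : X → Euc4 → M4} (h : IsMetricAtlas G) (hor : IsOrientedAtlas X)
    (hE : IsEinsteinAtlas G) (hK : IsSecNonnegAtlas G) (hS : ScalarDichotomy (geom h hE)) :
    (∀ p, ∀ y ∈ (chartAt Euc4 p).target, ¬ WpNeZeroAt (G p) y) ∨
      (∀ p, ∀ y ∈ (chartAt Euc4 p).target, ¬ WmNeZeroAt (G p) y) ∨
        ∀ p, ∀ y ∈ (chartAt Euc4 p).target, (∀ m i j k l, covRiem (G p) y m i j k l = 0) ∧
          ∃ Q : M4, Q.transpose * G p y * Q = 1 ∧ inFrame Q (riem (G p) y) = prodTen := by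
  obtain ⟨c1, c2⟩ := continuous_top h hor hE hK
  rcases hS (top h Jp) (top h Jm) c1 c2 (fun z => top_bounds h hE hK z)
    (fun e₀ he η hη => exists_barriers h hor hE hK he hη) with h0 | h0 | ⟨h1, h2⟩
  · exact .inl fun p y hy => (top_zero_iff h hor hE hK hy).1.1 (h0 _)
  · exact .inr (.inl fun p y hy => (top_zero_iff h hor hE hK hy).2.1 (h0 _))
  · exact .inr (.inr fun p y hy => rigid h hor hE hK h1 h2 p hy)

end

end Vale.Agent.P211.Main
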