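import Vale.Agent.P211.Main.Weyl
import Vale.Agent.P211.Global.Geom
import Vale.Agent.P211.Analytic.Penalty

/-!
# P211: smooth subsolving barriers close to the two tops
-/

open Matrix Filter Topology
open scoped ContDiff

namespace Vale.Agent.P211.Main

open Global

noncomputable section

/-- The derivative of a function of one variable composed with a function on `ℝ⁴`. -/
theorem pd_comp_one {φ : ℝ → ℝ} {f : Euc4 → ℝ} {y : Euc4} {φ' : ℝ}
    (hφ : HasDerivAt φ φ' (f y)) (hf : DifferentiableAt ℝ f y) (i : Fin 4) :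
    pd (fun z => φ (f z)) i y = φ' * pd f i y := by
  rw [pd, show (fun z => φ (f z)) = φ ∘ f from rfl,
    (hφ.comp_hasFDerivAt y hf.hasFDerivAt).fderiv]
  rfl

/-- The Laplacian of the cube root of a positive function. -/
theorem lap_cbrt {G : Euc4 → M4} {U : Set Euc4} (hU : IsOpen U) {u : Euc4 → ℝ}
    (hu : ContDiffOn ℝ ∞ u U) (hpos : ∀ y ∈ U, 0 < u y) {y : Euc4} (hy : y ∈ U) :
    Local.lap G (fun z => u z ^ (1 / 3 : ℝ)) y =
      u y ^ (1 / 3 : ℝ) / (3 * u y ^ 2) *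
        (u y * Local.lap G u y - 2 / 3 * Local.gradSq G u y) := by
  have d1 : ∀ z ∈ U, ∀ i, pd (fun w => u w ^ (1 / 3 : ℝ)) i z =
      1 / 3 * u z ^ (1 / 3 - 1 : ℝ) * pd u i z := fun z hz i =>
    pd_comp_one (φ := fun s => s ^ (1 / 3 : ℝ)) (Real.hasDerivAt_rpow_const (.inl (hpos z hz).ne'))
      (Local.differentiableAt_of_smooth hu hU hz) i
  have hd := Local.differentiableAt_of_smooth hu hU hy
  have d2 : ∀ i j, pd (pd (fun w => u w ^ (1 / 3 : ℝ)) j) i y =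
      1 / 3 * ((1 / 3 - 1) * u y ^ (1 / 3 - 1 - 1 : ℝ)) * (pd u i y * pd u j y) +
        1 / 3 * u y ^ (1 / 3 - 1 : ℝ) * pd (pd u j) i y := by
    intro i j
    have hq : DifferentiableAt ℝ (fun z => 1 / 3 * u z ^ (1 / 3 - 1 : ℝ)) y :=
      (hd.rpow_const (.inl (hpos y hy).ne')).const_mul _
    rw [Local.pd_congr hU hy (fun z hz => d1 z hz j) i,
      Local.pd_mul hq (Local.differentiableAt_of_smooth (Local.pd_smooth hu hU j) hU hy),
      pd_comp_one (φ := fun s => 1 / 3 * s ^ (1 / 3 - 1 : ℝ))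
        ((Real.hasDerivAt_rpow_const (.inl (hpos y hy).ne')).const_mul _) hd i]
    ring
  have e1 : u y ^ (1 / 3 - 1 : ℝ) = u y ^ (1 / 3 : ℝ) / u y := by
    rw [Real.rpow_sub (hpos y hy), Real.rpow_one]
  have e2 : u y ^ (1 / 3 - 1 - 1 : ℝ) = u y ^ (1 / 3 : ℝ) / u y ^ 2 := by
    rw [Real.rpow_sub (hpos y hy), Real.rpow_one, e1, div_div, sq]
  simp only [Local.lap, Local.gradSq, d1 y hy, d2, e1, e2, mul_sub, Finset.mul_sum,
    ← Finset.sum_sub_distrib]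
  refine Finset.sum_congr rfl fun i _ => Finset.sum_congr rfl fun j _ => ?_
  have hne := (hpos y hy).ne'
  have e : ∀ p, gam G y p i j * (1 / 3 * (u y ^ (1 / 3 : ℝ) / u y) * pd u p y) =
      1 / 3 * (u y ^ (1 / 3 : ℝ) / u y) * (gam G y p i j * pd u p y) := fun p => by ring
  simp only [e, ← Finset.mul_sum]
  field_simp
  ring

theorem lap_add_const {G : Euc4 → M4} {f : Euc4 → ℝ} {U : Set Euc4} (hU : IsOpen U) (c : ℝ) {y : Euc4} (hy : y ∈ U) :
    Local.lap G (fun z => f z + c) y = Local.lap G f y ∧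
      Local.gradSq G (fun z => f z + c) y = Local.gradSq G f y := by
  have d1 : ∀ z ∈ U, ∀ i, pd (fun w => f w + c) i z = pd f i z := fun z hz i => by
    simp [pd, fderiv_add_const]
  have d2 : ∀ i j, pd (pd (fun w => f w + c) j) i y = pd (pd f j) i y := fun i j =>
    Local.pd_congr hU hy (fun z hz => d1 z hz j) i
  constructor
  · simp only [Local.lap, d2, d1 y hy]
  · simp only [Local.gradSq, d1 y hy]

/-- The comparison of the reaction terms. -/
theorem cbrt_barrier {σ p F A g err : ℝ} (hσ : 0 < σ) (hσ1 : σ ≤ 1) (hp : 0 ≤ p)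
    (hF : p ≤ F) (hF' : F ≤ p + σ ^ 3) (herr : err ≤ σ ^ 3) {l : ℝ} (hl : 0 < l)
    (hl3 : l ^ 3 = F + σ ^ 3)
    (hineq : 2 / 3 * g ≤ (F + σ ^ 3) * (A - (6 * p * (1 - p) - err))) :
    Analytic.react l - 29 * σ ≤ l / (3 * (F + σ ^ 3) ^ 2) * ((F + σ ^ 3) * A - 2 / 3 * g) := by
  have hσ3 : σ ^ 3 ≤ 1 := pow_le_one₀ hσ.le hσ1
  have hσ0 : 0 < σ ^ 3 := by positivity
  set u := F + σ ^ 3
  have hu : 0 < u := by linarith
  have h1 : l / (3 * u ^ 2) * (u * (6 * p * (1 - p) - err)) ≤ l / (3 * u ^ 2) * (u * A - 2 / 3 * g) :=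
    mul_le_mul_of_nonneg_left (by nlinarith) (by positivity)
  refine le_trans ?_ h1
  have h2 : 6 * u * (1 - u) - (6 * p * (1 - p) - err) ≤ 85 * σ ^ 3 := by
    nlinarith [mul_nonneg (show 0 ≤ u - p by linarith) (show 0 ≤ u + p by linarith)]
  have hlσ : σ ^ 2 ≤ l ^ 2 := by
    have : σ ≤ l := le_of_pow_le_pow_left₀ three_ne_zero hl.le (by linarith [hl3])
    exact pow_le_pow_left₀ hσ.le this 2
  have h3 : l / (3 * u ^ 2) * (u * (85 * σ ^ 3)) ≤ 29 * σ := by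
    have e : l / (3 * u ^ 2) * (u * (85 * σ ^ 3)) = 85 * σ ^ 3 / (3 * l ^ 2) := by
      rw [← hl3]
      field_simp
    rw [e, div_le_iff₀ (by positivity)]
    nlinarith [mul_le_mul_of_nonneg_left hlσ hσ.le]
  have h4 : Analytic.react l = l / (3 * u ^ 2) * (u * (6 * u * (1 - u))) := by
    rw [Analytic.react, hl3]
    field_simp
    ring
  have h5 : l / (3 * u ^ 2) * (u * (6 * u * (1 - u))) -
      l / (3 * u ^ 2) * (u * (6 * p * (1 - p) - err)) ≤ l / (3 * u ^ 2) * (u * (85 * σ ^ 3)) := by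
    rw [← mul_sub, ← mul_sub]
    exact mul_le_mul_of_nonneg_left (mul_le_mul_of_nonneg_left h2 hu.le) (by positivity)
  linarith

variable {X : Type*} [TopologicalSpace X] [ChartedSpace Euc4 X]
  [IsManifold (modelWithCornersSelf ℝ Euc4) ∞ X]
variable {G : X → Euc4 → M4} (h : IsMetricAtlas G) (hor : IsOrientedAtlas X)
variable (hE : IsEinsteinAtlas G) (hK : IsSecNonnegAtlas G)

/-- The barrier: the cube root of the shifted approximation. -/
def barrier (k : ℕ) (σ : ℝ) (J : Fin 3 → M4) (x : X) : ℝ :=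
  (spec h 5 k J x + σ ^ 3) ^ (1 / 3 : ℝ)

include hor hE hK

omit hor [IsManifold (modelWithCornersSelf ℝ Euc4) ∞ X] in
theorem spec_add_pos {k : ℕ} (hk : 1 ≤ k) {σ : ℝ} (hσ : 0 < σ) {J : Fin 3 → M4} (hJ : IsHalf J)
    (x : X) : 0 < spec h 5 k J x + σ ^ 3 := by
  have h1 := (spec_bounds h hE hK (by norm_num : (4 : ℝ) < 5) hk hJ x).1
  obtain ⟨p0, q0, -⟩ := top_bounds h hE hK x
  have : 0 < σ ^ 3 := pow_pos hσ 3
  rcases hJ with rfl | rfl <;> linarith

omit hor [IsManifold (modelWithCornersSelf ℝ Euc4) ∞ X] in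
theorem barrier_cube {k : ℕ} (hk : 1 ≤ k) {σ : ℝ} (hσ : 0 < σ) {J : Fin 3 → M4} (hJ : IsHalf J)
    (x : X) : 0 < barrier h k σ J x ∧ barrier h k σ J x ^ 3 = spec h 5 k J x + σ ^ 3 := by
  have h0 := spec_add_pos h hE hK hk hσ hJ x
  refine ⟨Real.rpow_pos_of_pos h0 _, ?_⟩
  rw [barrier, ← Real.rpow_natCast, ← Real.rpow_mul h0.le]
  norm_num

theorem smooth_barrier {k : ℕ} (hk : 1 ≤ k) {σ : ℝ} (hσ : 0 < σ) {J : Fin 3 → M4}
    (hJ : IsHalf J) : Smooth (barrier h k σ J) := fun p =>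
  ((smooth_spec h hor hE hK (by norm_num) k hJ p).add contDiffOn_const).rpow_const_of_ne
    fun _ _ => (spec_add_pos h hE hK hk hσ hJ _).ne'

/-- The barrier is a subsolution up to a small defect. -/
theorem barrier_sub {k : ℕ} (hk : 2 ≤ k) {σ : ℝ} (hσ : 0 < σ) (hσ1 : σ ≤ 1)
    (hsmall : 230 * ((3 : ℝ) ^ (1 / k : ℝ) - 1) ≤ σ ^ 3) {J : Fin 3 → M4} (hJ : IsHalf J) (x : X) :
    Analytic.react (barrier h k σ J x) - 29 * σ ≤ (hess h (barrier h k σ J) x).trace := by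
  have hk1 : 1 ≤ k := by omega
  have hx := mem_chart_source Euc4 x
  set y := chartAt Euc4 x x
  have hy : y ∈ (chartAt Euc4 x).target := (chartAt Euc4 x).map_source hx
  have hU := (chartAt Euc4 x).open_target
  have hey : rd x (spec h 5 k J) y = spec h 5 k J x := by
    rw [rd, (chartAt Euc4 x).left_inv hx]
  obtain ⟨hl, hl3⟩ := barrier_cube h hE hK hk1 hσ hJ x
  obtain ⟨hFp, hFp'⟩ := spec_bounds h hE hK (by norm_num : (4 : ℝ) < 5) hk1 hJ x
  have hr := Spectral.one_le_three_rpow k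
  obtain ⟨p0, q0, pq⟩ := top_bounds h hE hK x
  have hp : 0 ≤ top h J x ∧ top h J x ≤ 2 := by
    rcases hJ with rfl | rfl <;> constructor <;> linarith
  set p := top h J x
  have hsmall' : (5 + p) * ((3 : ℝ) ^ (1 / k : ℝ) - 1) ≤ σ ^ 3 :=
    le_trans (mul_le_mul_of_nonneg_right (by linarith) (by linarith)) hsmall
  have herr : Spectral.reactErr 5 p k ≤ σ ^ 3 := by
    refine le_trans (mul_le_mul_of_nonneg_right ?_ (by linarith)) hsmall
    have : |6 * p * (1 - p)| ≤ 20 := abs_le.2 ⟨by nlinarith, by nlinarith⟩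
    nlinarith
  have hlb := Local.lap_F_ge_both (isMetricOn h x) (isFrameOn_frameAt h x) (hE x) (hK x)
    (a := 5) (by norm_num) hk (e := σ ^ 3) (by positivity) hy
    (top_chart h hor hE hK (.inl rfl) hx) (top_chart h hor hE hK (.inr rfl) hx)
  set f := fun z => Spectral.F 5 k (Local.wB J (G x) (frameAt h x) z) with hf
  have hrd : ∀ z ∈ (chartAt Euc4 x).target, rd x (spec h 5 k J) z = f z :=
    fun z hz => rd_spec h hor 5 k hJ x hz
  have hineq : 2 / 3 * Local.gradSq (G x) f y ≤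
      (f y + σ ^ 3) * (Local.lap (G x) f y - (6 * p * (1 - p) - Spectral.reactErr 5 p k)) := by
    rcases hJ with rfl | rfl
    exacts [hlb.1, hlb.2]
  have hs : ContDiffOn ℝ ∞ f (chartAt Euc4 x).target :=
    (smooth_spec h hor hE hK (by norm_num) k hJ x).congr fun z hz => (hrd z hz).symm
  have hpos : ∀ z ∈ (chartAt Euc4 x).target, 0 < f z + σ ^ 3 := fun z hz => by
    rw [← hrd z hz]
    exact spec_add_pos h hE hK hk1 hσ hJ _
  have htr : (hess h (barrier h k σ J) x).trace =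
      Local.lap (G x) (fun z => (f z + σ ^ 3) ^ (1 / 3 : ℝ)) y := by
    rw [trace_hess h hx (smooth_barrier h hor hE hK hk1 hσ hJ), show chartAt Euc4 x x = y from rfl]
    have e : ∀ z ∈ (chartAt Euc4 x).target,
        rd x (barrier h k σ J) z = (f z + σ ^ 3) ^ (1 / 3 : ℝ) := fun z hz => by
      rw [← hrd z hz]; rfl
    have e1 : ∀ i, ∀ z ∈ (chartAt Euc4 x).target, pd (rd x (barrier h k σ J)) i z =
        pd (fun w => (f w + σ ^ 3) ^ (1 / 3 : ℝ)) i z := fun i z hz =>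
      Local.pd_congr hU hz e i
    simp only [Local.lap, e1 _ _ hy]
    refine Finset.sum_congr rfl fun i _ => Finset.sum_congr rfl fun j _ => ?_
    rw [Local.pd_congr hU hy (e1 j) i]
  have hfy : f y = spec h 5 k J x := by rw [← hrd y hy, hey]
  rw [htr, lap_cbrt hU (hs.add contDiffOn_const) hpos hy, (lap_add_const hU _ hy).1,
    (lap_add_const hU _ hy).2, hfy]
  rw [hfy] at hineq
  exact cbrt_barrier hσ hσ1 hp.1 hFp (hFp'.trans (by linarith)) herr hl hl3 hineq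

/-- Smooth subsolving barriers in `[0, 2]` with cubes close to the two tops. -/
theorem exists_barriers {e₀ η : ℝ} (he : 0 < e₀) (hη : 0 < η) :
    ∃ l₁ l₂ : X → ℝ, Smooth l₁ ∧ Smooth l₂ ∧
      (∀ x, l₁ x ∈ Set.Icc (0 : ℝ) 2 ∧ l₂ x ∈ Set.Icc (0 : ℝ) 2) ∧
      (∀ x, Analytic.react (l₁ x) - e₀ ≤ (hess h l₁ x).trace) ∧
      (∀ x, Analytic.react (l₂ x) - e₀ ≤ (hess h l₂ x).trace) ∧
      (∀ x, l₁ x ^ 3 + l₂ x ^ 3 ≤ 2 + η) ∧
      ∀ x, |l₁ x ^ 3 - top h Jp x| ≤ η ∧ |l₂ x ^ 3 - top h Jm x| ≤ η := by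
  obtain ⟨σ, hσ, hσ1, hσe, hση⟩ : ∃ σ : ℝ, 0 < σ ∧ σ ≤ 1 ∧ 29 * σ ≤ e₀ ∧ 4 * σ ^ 3 ≤ η := by
    refine ⟨min 1 (min (e₀ / 29) (η / 4)), by positivity, min_le_left _ _, ?_, ?_⟩
    · linarith [min_le_right 1 (min (e₀ / 29) (η / 4)), min_le_left (e₀ / 29) (η / 4)]
    · have h1 : min 1 (min (e₀ / 29) (η / 4)) ^ 3 ≤ min 1 (min (e₀ / 29) (η / 4)) :=
        pow_le_of_le_one (by positivity) (min_le_left _ _) three_ne_zero
      linarith [min_le_right 1 (min (e₀ / 29) (η / 4)), min_le_right (e₀ / 29) (η / 4)]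
  have hev : ∀ᶠ k : ℕ in atTop, 230 * ((3 : ℝ) ^ (1 / k : ℝ) - 1) ≤ σ ^ 3 := by
    have := (Spectral.tendsto_three_rpow.sub_const 1).const_mul 230
    simp only [sub_self, mul_zero] at this
    exact this.eventually (eventually_le_nhds (by positivity))
  obtain ⟨k, hk, hsmall⟩ := ((eventually_ge_atTop 2).and hev).exists
  have hk1 : 1 ≤ k := by omega
  have key : ∀ J, IsHalf J → ∀ x, top h J x ≤ 2 → 0 < barrier h k σ J x ∧
      top h J x ≤ barrier h k σ J x ^ 3 ∧ barrier h k σ J x ^ 3 ≤ top h J x + 2 * σ ^ 3 := by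
    intro J hJ x h2
    obtain ⟨hl, hl3⟩ := barrier_cube h hE hK hk1 hσ hJ x
    obtain ⟨a1, a2⟩ := spec_bounds h hE hK (by norm_num : (4 : ℝ) < 5) hk1 hJ x
    have hr := Spectral.one_le_three_rpow k
    have hσ0 : 0 < σ ^ 3 := pow_pos hσ 3
    have : (5 + top h J x) * ((3 : ℝ) ^ (1 / k : ℝ) - 1) ≤ σ ^ 3 :=
      le_trans (mul_le_mul_of_nonneg_right (by linarith) (by linarith)) hsmall
    exact ⟨hl, by linarith, by linarith⟩
  have hσ3 : σ ^ 3 ≤ 1 := pow_le_one₀ hσ.le hσ1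
  have kp : ∀ x, (0 < barrier h k σ Jp x ∧
      top h Jp x ≤ barrier h k σ Jp x ^ 3 ∧ barrier h k σ Jp x ^ 3 ≤ top h Jp x + 2 * σ ^ 3) ∧
      (0 < barrier h k σ Jm x ∧
      top h Jm x ≤ barrier h k σ Jm x ^ 3 ∧ barrier h k σ Jm x ^ 3 ≤ top h Jm x + 2 * σ ^ 3) := by
    intro x
    obtain ⟨p0, q0, pq⟩ := top_bounds h hE hK x
    exact ⟨key Jp (.inl rfl) x (by linarith), key Jm (.inr rfl) x (by linarith)⟩
  have hle2 : ∀ {l t : ℝ}, 0 < l → l ^ 3 ≤ t + 2 * σ ^ 3 → t ≤ 2 → l ∈ Set.Icc (0 : ℝ) 2 :=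
    fun hl h3 ht => ⟨hl.le, le_of_pow_le_pow_left₀ three_ne_zero zero_le_two (by linarith)⟩
  refine ⟨barrier h k σ Jp, barrier h k σ Jm, smooth_barrier h hor hE hK hk1 hσ (.inl rfl),
    smooth_barrier h hor hE hK hk1 hσ (.inr rfl), fun x => ?_, fun x => ?_, fun x => ?_, fun x => ?_,
    fun x => ?_⟩
  · obtain ⟨⟨a0, -, a2⟩, b0, -, b2⟩ := kp x
    obtain ⟨p0, q0, pq⟩ := top_bounds h hE hK x
    exact ⟨hle2 a0 a2 (by linarith), hle2 b0 b2 (by linarith)⟩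
  · linarith [barrier_sub h hor hE hK hk hσ hσ1 hsmall (.inl rfl) x]
  · linarith [barrier_sub h hor hE hK hk hσ hσ1 hsmall (.inr rfl) x]
  · obtain ⟨⟨-, -, a2⟩, -, -, b2⟩ := kp x
    linarith [(top_bounds h hE hK x).2.2]
  · obtain ⟨⟨-, a1, a2⟩, -, b1, b2⟩ := kp x
    exact ⟨abs_le.2 ⟨by linarith, by linarith⟩, abs_le.2 ⟨by linarith, by linarith⟩⟩

/-- The tops are continuous. -/
theorem continuous_top [CompactSpace X] :
    Continuous (top h Jp) ∧ Continuous (top h Jm) := by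
  have hc : ∀ f : X → ℝ, (∀ η : ℝ, 0 < η → ∃ l : X → ℝ, Continuous l ∧ ∀ x, |l x - f x| ≤ η) →
      Continuous f := by
    intro f hf
    refine continuous_of_uniform_approx_of_continuous fun u hu => ?_
    obtain ⟨ε, hε, hεu⟩ := Metric.mem_uniformity_dist.1 hu
    obtain ⟨l, hl, hlf⟩ := hf (ε / 2) (by linarith)
    refine ⟨l, hl, fun x => hεu ?_⟩
    rw [Real.dist_eq, abs_sub_comm]
    linarith [hlf x]
  constructor <;> refine hc _ fun η hη => ?_ <;>
    obtain ⟨l₁, l₂, s1, s2, -, -, -, -, hd⟩ := exists_barriers h hor hE hK one_pos hη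
  · exact ⟨fun x => l₁ x ^ 3, (continuous_of_smooth s1).pow 3, fun x => (hd x).1⟩
  · exact ⟨fun x => l₂ x ^ 3, (continuous_of_smooth s2).pow 3, fun x => (hd x).2⟩

end

end Vale.Agent.P211.Main
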