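import Vale.Agent.P211.Main.Vanish
import Vale.Agent.P211.Alg.SelfDual.Sanity

/-!
# P211: both Weyl halves vanish exactly where the curvature is that of the unit sphere
-/

open Matrix
open scoped ContDiff

namespace Vale.Agent.P211.Main

open SelfDual (IsCurvTen comp pIdx qIdx sphereTen)

noncomputable section

theorem isCurvTen_sphereTen : IsCurvTen sphereTen :=
  ⟨fun i j k l => by simp only [sphereTen]; ring, fun i j k l => by simp only [sphereTen]; ring,
    fun i j k l => by simp only [sphereTen, one_apply, eq_comm]; ring,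
    fun i j k l => by simp only [sphereTen, one_apply, eq_comm]; ring⟩

/-- An ordered pair of indices is diagonal or one of the six up to order. -/
theorem pair_cases : ∀ i j : Fin 4, i = j ∨ ∃ a, (i, j) = pIdx a ∨ (i, j) = qIdx a ∨
    (j, i) = pIdx a ∨ (j, i) = qIdx a := by
  decide

/-- A skew function of two indices vanishing on the six pairs vanishes. -/
theorem skew_eq_zero {f : Fin 4 → Fin 4 → ℝ} (hf : ∀ i j, f j i = -f i j)
    (hp : ∀ a, f (pIdx a).1 (pIdx a).2 = 0) (hq : ∀ a, f (qIdx a).1 (qIdx a).2 = 0)
    (i j : Fin 4) : f i j = 0 := by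
  rcases pair_cases i j with rfl | ⟨a, h | h | h | h⟩
  · linarith [hf i i]
  · simpa [← h] using hp a
  · simpa [← h] using hq a
  · have := hp a; rw [← h] at this; linarith [hf i j]
  · have := hq a; rw [← h] at this; linarith [hf i j]

/-- An Einstein curvature tensor with both blocks equal to the identity is that of the sphere. -/
theorem eq_sphereTen {R : Ten4} (hR : IsCurvTen R)
    (hric : ∀ i k, SelfDual.ricTen R i k = 3 * (1 : M4) i k) (hp : block R Jp Jp = 1)
    (hm : block R Jm Jm = 1) : R = sphereTen := by
  have hS := isCurvTen_sphereTen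
  obtain ⟨e1, e2⟩ := SelfDual.block_sphereTen
  have hricS : ∀ i k, SelfDual.ricTen sphereTen i k = 3 * (1 : M4) i k := by
    intro i k
    simp only [SelfDual.ricTen, sphereTen, Fin.sum_univ_four]
    fin_cases i <;> fin_cases k <;> norm_num [one_apply, Fin.ext_iff]
  have hx := ((SelfDual.ricTen_eq_three_iff hR).1 hric).1
  have e3 := ((SelfDual.ricTen_eq_three_iff hS).1 hricS).1
  have key : ∀ a b, comp R (pIdx a) (pIdx b) = comp sphereTen (pIdx a) (pIdx b) ∧
      comp R (qIdx a) (qIdx b) = comp sphereTen (qIdx a) (qIdx b) ∧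
      comp R (pIdx a) (qIdx b) = comp sphereTen (pIdx a) (qIdx b) := by
    intro a b
    have p1 := congrFun (congrFun (hp.trans e1.symm) a) b
    have p2 := congrFun (congrFun (hm.trans e2.symm) a) b
    have p3 := congrFun (congrFun (hx.trans e3.symm) a) b
    have p4 := congrFun (congrFun (hx.trans e3.symm) b) a
    rw [SelfDual.block_pp hR, SelfDual.block_pp hS] at p1
    rw [SelfDual.block_mm hR, SelfDual.block_mm hS] at p2
    rw [SelfDual.block_pm hR, SelfDual.block_pm hS] at p3 p4
    rw [hR.comp_comm (pIdx a) (pIdx b), hS.comp_comm (pIdx a) (pIdx b),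
      hR.comp_comm (qIdx a) (qIdx b), hS.comp_comm (qIdx a) (qIdx b),
      hR.comp_comm (qIdx a) (pIdx b), hS.comp_comm (qIdx a) (pIdx b),
      hR.comp_comm (pIdx a) (qIdx b), hS.comp_comm (pIdx a) (qIdx b)] at p4
    exact ⟨by linarith, by linarith, by linarith⟩
  have d : IsCurvTen fun i j k l => R i j k l - sphereTen i j k l :=
    ⟨fun i j k l => by linarith [hR.anti12 i j k l, hS.anti12 i j k l],
      fun i j k l => by linarith [hR.anti34 i j k l, hS.anti34 i j k l],
      fun i j k l => by linarith [hR.swap i j k l, hS.swap i j k l],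
      fun i j k l => by linarith [hR.bianchi i j k l, hS.bianchi i j k l]⟩
  funext i j k l
  refine sub_eq_zero.1 (skew_eq_zero (f := fun i j => R i j k l - sphereTen i j k l)
    (fun i j => d.anti12 i j k l) (fun a => ?_) (fun a => ?_) i j)
  · refine skew_eq_zero (f := fun k l => R (pIdx a).1 (pIdx a).2 k l -
      sphereTen (pIdx a).1 (pIdx a).2 k l) (fun k l => d.anti34 _ _ k l) (fun b => ?_)
      (fun b => ?_) k l
    · exact sub_eq_zero.2 (key a b).1
    · exact sub_eq_zero.2 (key a b).2.2
  · refine skew_eq_zero (f := fun k l => R (qIdx a).1 (qIdx a).2 k l -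
      sphereTen (qIdx a).1 (qIdx a).2 k l) (fun k l => d.anti34 _ _ k l) (fun b => ?_)
      (fun b => ?_) k l
    · refine sub_eq_zero.2 ?_
      have := (key b a).2.2
      rw [← hR.comp_comm, ← hS.comp_comm] at this
      exact this
    · exact sub_eq_zero.2 (key a b).2.1

/-- The sphere tensor in any frame. -/
theorem inFrame_sphereTen (Q : M4) (i j k l : Fin 4) :
    inFrame Q sphereTen i j k l =
      (Q.transpose * Q) i k * (Q.transpose * Q) j l -
        (Q.transpose * Q) i l * (Q.transpose * Q) j k := by
  simp only [inFrame, sphereTen, one_apply, sub_mul, ite_mul, mul_ite, one_mul, mul_one, zero_mul,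
    mul_zero, Finset.sum_sub_distrib, Finset.sum_ite_eq, Finset.mem_univ, if_true,
    Finset.sum_ite_irrel, Finset.sum_const_zero, mul_apply, transpose_apply, Finset.sum_mul_sum]
  refine congrArg₂ (· - ·) (Finset.sum_congr rfl fun a _ => Finset.sum_congr rfl fun b _ => ?_)
    (Finset.sum_congr rfl fun a _ => Finset.sum_congr rfl fun b _ => ?_) <;> ring

/-- The curvature of the unit sphere in coordinates. -/
theorem riem_eq_round_iff {G : Euc4 → M4} {U : Set Euc4} (hG : Local.IsMetricOn G U)
    (hE : IsEinsteinThree G U) {y : Euc4} (hy : y ∈ U) :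
    ¬ WpNeZeroAt G y ∧ ¬ WmNeZeroAt G y ↔
      ∀ i j k l, riem G y i j k l = G y i k * G y j l - G y i l * G y j k := by
  obtain ⟨P, hP⟩ := Local.exists_frame hG
  have hf := hP.frame y hy
  constructor
  · rintro ⟨h1, h2⟩ i j k l
    simp only [WpNeZeroAt, WmNeZeroAt, not_exists, not_and, not_not] at h1 h2
    have e : inFrame (P y) (riem G y) = sphereTen :=
      eq_sphereTen ((hG.isCurvTen hy).inFrame _)
        (fun a c => Local.ricTen_frameRiem hG hP hy hE a c) (h1 _ hf) (h2 _ hf)
    obtain ⟨he, hd⟩ := hf
    have hinv : P y * ((P y).transpose * G y) = 1 := mul_eq_one_comm.1 he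
    set Q := (P y).transpose * G y with hQ
    have e2 : riem G y = inFrame Q sphereTen := by
      rw [← e, ← SelfDual.inFrame_mul, hinv]
      funext i j k l
      simp [inFrame, one_apply]
    have hQQ : Q.transpose * Q = G y := by
      rw [hQ, transpose_mul, transpose_transpose, Matrix.mul_assoc]
      rw [show (P y) * ((P y).transpose * G y) = 1 from hinv, Matrix.mul_one, hG.transpose_eq]
    rw [e2, inFrame_sphereTen, hQQ]
  · intro h
    have e : ∀ P' : M4, P'.transpose * G y * P' = 1 →
        inFrame P' (riem G y) = sphereTen := fun P' hP' => by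
      have hinv : ((P'.transpose * G y)) * P' = 1 := hP'
      set Q := P'.transpose * G y with hQ
      have hQ' : P' * Q = 1 := mul_eq_one_comm.1 hinv
      have hQQ : Q.transpose * Q = G y := by
        rw [hQ, transpose_mul, transpose_transpose, Matrix.mul_assoc]
        rw [show P' * (P'.transpose * G y) = 1 from hQ', Matrix.mul_one, hG.transpose_eq]
      have e1 : riem G y = inFrame Q sphereTen := by
        funext i j k l
        rw [h, inFrame_sphereTen, hQQ]
      rw [e1, ← SelfDual.inFrame_mul, hinv]
      funext i j k l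
      simp [inFrame, one_apply]
    exact ⟨fun ⟨P', hP', hne⟩ => hne (by rw [e P' hP'.1]; exact SelfDual.block_sphereTen.1),
      fun ⟨P', hP', hne⟩ => hne (by rw [e P' hP'.1]; exact SelfDual.block_sphereTen.2)⟩

end

end Vale.Agent.P211.Main
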