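import Vale.Agent.P211.Main.Final
import Vale.Agent.P211.Analytic.Certified

/-!
# P211: the scalar dichotomy from the pointwise certificates, and the classification from the data
-/

open scoped ContDiff

namespace Vale.Agent.P211.Main

noncomputable section

/-- The analytic side: the pointwise certificates for all losses give the scalar dichotomy. -/
theorem scalarDichotomy_of_pointwise {Y : Type*} [TopologicalSpace Y] [MeasurableSpace Y]
    [CompactSpace Y] [BorelSpace Y] [PreconnectedSpace Y] (S : Analytic.ScalarGeom Y)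
    {ρ : ℝ → ℝ → ℝ} {c : ℝ} (hT : Cert.GoodTarget ρ c)
    (hP : ∀ κ > 0, ∀ Φ : ℝ, Nonempty (Cert.Pointwise (Cert.gateWeight ρ) κ Φ)) :
    ScalarDichotomy S := fun _ _ cx cy hxy hB => by
  obtain ⟨h1, h2, h3, h4⟩ := Cert.gateWeight_facts hT
  exact Analytic.scalar_dichotomy (fun κ hκ => hP κ hκ _) h1 (fun s t _ _ _ => h2 s t) h3 h4 cx cy
    (fun z => (hxy z).1) (fun z => (hxy z).2.1) hB

universe u

/-- From a checked vector to the classification. -/
theorem classification_of_holds {V : Cert.Vec} {ρ : ℝ → ℝ → ℝ} {c : ℝ} (hH : Cert.Holds V ρ)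
    (hT : Cert.GoodTarget ρ c) {X : Type u} [TopologicalSpace X] [ChartedSpace Euc4 X]
    [IsManifold (modelWithCornersSelf ℝ Euc4) ∞ X] [T2Space X] [CompactSpace X] [ConnectedSpace X]
    {G : X → Euc4 → M4} (h : IsMetricAtlas G) (hor : IsOrientedAtlas X) (hE : IsEinsteinAtlas G)
    (hK : IsSecNonnegAtlas G) :
    ((∀ p, ∀ y ∈ (chartAt Euc4 p).target, ¬ WpNeZeroAt (G p) y) ∨
      (∀ p, ∀ y ∈ (chartAt Euc4 p).target, ¬ WmNeZeroAt (G p) y) ∨
        ∀ p, ∀ y ∈ (chartAt Euc4 p).target, (∀ m i j k l, covRiem (G p) y m i j k l = 0) ∧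
          ∃ Q : M4, Q.transpose * G p y * Q = 1 ∧ inFrame Q (riem (G p) y) = prodTen) ∧
    ∀ p, ∀ y ∈ (chartAt Euc4 p).target, (¬ WpNeZeroAt (G p) y ∧ ¬ WmNeZeroAt (G p) y ↔
      ∀ i j k l, riem (G p) y i j k l = G p y i k * G p y j l - G p y i l * G p y j k) :=
  classification_of_inputs hH hT (fun Y _ _ _ _ _ _ S hP => scalarDichotomy_of_pointwise S hT hP)
    h hor hE hK

/-- From a checked vector to the statement to hand in. -/
theorem classification_statement_of_holds {V : Cert.Vec} {ρ : ℝ → ℝ → ℝ} {c : ℝ}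
    (hH : Cert.Holds V ρ) (hT : Cert.GoodTarget ρ c) :
    (∀ (X : Type u) [TopologicalSpace X] [ChartedSpace Euc4 X]
      [IsManifold (modelWithCornersSelf ℝ Euc4) ∞ X] [T2Space X] [CompactSpace X] [ConnectedSpace X]
      (G : X → Euc4 → M4), IsMetricAtlas G → IsOrientedAtlas X → IsEinsteinAtlas G →
      IsSecNonnegAtlas G →
        ((∀ p, ∀ y ∈ (chartAt Euc4 p).target, ¬ WpNeZeroAt (G p) y) ∨
          (∀ p, ∀ y ∈ (chartAt Euc4 p).target, ¬ WmNeZeroAt (G p) y) ∨
            ∀ p, ∀ y ∈ (chartAt Euc4 p).target, (∀ m i j k l, covRiem (G p) y m i j k l = 0) ∧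
              ∃ Q : M4, Q.transpose * G p y * Q = 1 ∧ inFrame Q (riem (G p) y) = prodTen) ∧
        ∀ p, ∀ y ∈ (chartAt Euc4 p).target, (¬ WpNeZeroAt (G p) y ∧ ¬ WmNeZeroAt (G p) y ↔
          ∀ i j k l, riem (G p) y i j k l =
            G p y i k * G p y j l - G p y i l * G p y j k)) ∧
    ∃ (X : Type) (_ : TopologicalSpace X) (_ : ChartedSpace Euc4 X)
      (_ : IsManifold (modelWithCornersSelf ℝ Euc4) ∞ X) (_ : T2Space X) (_ : CompactSpace X)
      (_ : ConnectedSpace X) (G : X → Euc4 → M4),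
      IsMetricAtlas G ∧ IsOrientedAtlas X ∧ IsEinsteinAtlas G ∧ IsSecNonnegAtlas G :=
  classification_statement_of_inputs hH hT fun Y _ _ _ _ _ _ S hP =>
    scalarDichotomy_of_pointwise S hT hP

end

end Vale.Agent.P211.Main
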