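import Vale.Agent.P211.Main.RoundCurv
import Vale.Agent.P211.Statement.Positive
import Vale.Agent.P211.Global.Atlas

/-!
# P211: the hypotheses are satisfiable: the round four-sphere as an oriented two-chart atlas
-/

open Matrix Filter Topology
open scoped ContDiff

namespace Vale.Agent.P211.Main

noncomputable section

/-- The sign of a coordinate under the reflection in the first hyperplane. -/
def flipSign (i : Fin 4) : ℝ := if i = 0 then -1 else 1

/-- The inversion in the unit sphere followed by the reflection: it preserves the orientation. -/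
def turn (y : Euc4) : Euc4 := (‖y‖ ^ 2)⁻¹ • WithLp.toLp 2 fun i => flipSign i * y i

theorem flipSign_sq (i : Fin 4) : flipSign i * flipSign i = 1 := by
  unfold flipSign; split <;> norm_num

theorem turn_apply (y : Euc4) (i : Fin 4) : turn y i = (‖y‖ ^ 2)⁻¹ * (flipSign i * y i) := rfl

theorem turn_norm_sq (y : Euc4) : ‖turn y‖ ^ 2 = (‖y‖ ^ 2)⁻¹ := by
  have e : ∀ i, turn y i * turn y i = (‖y‖ ^ 2)⁻¹ * (‖y‖ ^ 2)⁻¹ * (y i * y i) := fun i => by
    rw [turn_apply]
    linear_combination ((‖y‖ ^ 2)⁻¹ * (‖y‖ ^ 2)⁻¹ * (y i * y i)) * flipSign_sq i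
  rw [norm_sq_sum (turn y)]
  simp only [e, ← Finset.mul_sum, ← norm_sq_sum]
  rcases eq_or_ne (‖y‖ ^ 2) 0 with h | h
  · simp [h]
  · field_simp

theorem turn_ne {y : Euc4} (hy : y ≠ 0) : turn y ≠ 0 := fun h => by
  have := turn_norm_sq y
  rw [h, norm_zero, zero_pow two_ne_zero] at this
  exact inv_ne_zero (pow_ne_zero 2 (norm_ne_zero_iff.2 hy)) this.symm

theorem turn_turn {y : Euc4} (hy : y ≠ 0) : turn (turn y) = y := by
  ext i
  rw [turn_apply, turn_norm_sq, turn_apply, inv_inv]
  have h : ‖y‖ ^ 2 ≠ 0 := by simp [hy]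
  field_simp
  linear_combination y i * flipSign_sq i

theorem turn_norm (y : Euc4) : ‖turn y‖ = ‖y‖⁻¹ := by
  have h := congrArg Real.sqrt (turn_norm_sq y)
  rwa [Real.sqrt_sq (norm_nonneg _), Real.sqrt_inv, Real.sqrt_sq (norm_nonneg _)] at h

theorem contDiffAt_turn {y : Euc4} (hy : y ≠ 0) : ContDiffAt ℝ ∞ turn y := by
  refine (contDiffAt_euclidean).2 fun i => ?_
  simp only [turn_apply]
  exact ((contDiff_norm_sq ℝ).contDiffAt.inv (by simp [hy])).mul
    (contDiffAt_const.mul ((PiLp.proj (𝕜 := ℝ) 2 (fun _ : Fin 4 => ℝ) i).contDiff.contDiffAt))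

/-- The four-sphere as the one point compactification of `ℝ⁴`. -/
def S4 : Type := OnePoint Euc4

instance : TopologicalSpace S4 := inferInstanceAs (TopologicalSpace (OnePoint Euc4))
instance : T2Space S4 := inferInstanceAs (T2Space (OnePoint Euc4))
instance : CompactSpace S4 := inferInstanceAs (CompactSpace (OnePoint Euc4))
instance : ConnectedSpace S4 :=
  haveI : NoncompactSpace Euc4 := NormedSpace.noncompactSpace ℝ Euc4
  inferInstanceAs (ConnectedSpace (OnePoint Euc4))

/-- The exchange of the two poles. -/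
def swapFun : OnePoint Euc4 → OnePoint Euc4 :=
  fun p => p.elim ((0 : Euc4) : OnePoint Euc4) fun y => if y = 0 then (OnePoint.infty : OnePoint Euc4) else ↑(turn y)

theorem swapFun_coe {y : Euc4} (hy : y ≠ 0) : swapFun (y : OnePoint Euc4) = ↑(turn y) := by
  show (if y = 0 then (OnePoint.infty : OnePoint Euc4) else ↑(turn y)) = _
  rw [if_neg hy]

theorem swapFun_zero : swapFun ((0 : Euc4) : OnePoint Euc4) = (OnePoint.infty : OnePoint Euc4) := by
  show (if (0 : Euc4) = 0 then (OnePoint.infty : OnePoint Euc4) else ↑(turn 0)) = _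
  rw [if_pos rfl]

theorem swapFun_infty : swapFun (OnePoint.infty : OnePoint Euc4) = ((0 : Euc4) : OnePoint Euc4) := rfl

theorem swapFun_swapFun (p : OnePoint Euc4) : swapFun (swapFun p) = p := by
  induction p using OnePoint.rec with
  | infty => rw [swapFun_infty, swapFun_zero]
  | coe y =>
    rcases eq_or_ne y 0 with rfl | hy
    · rw [swapFun_zero, swapFun_infty]
    · rw [swapFun_coe hy, swapFun_coe (turn_ne hy), turn_turn hy]

theorem continuous_swapFun : Continuous swapFun := by
  refine continuous_iff_continuousAt.2 fun p => ?_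
  induction p using OnePoint.rec with
  | infty =>
    rw [OnePoint.continuousAt_infty', swapFun_infty, coclosedCompact_eq_cocompact,
      ← Metric.cobounded_eq_cocompact]
    have h0 : Tendsto turn (Bornology.cobounded Euc4) (𝓝 0) := by
      rw [tendsto_zero_iff_norm_tendsto_zero]
      simp only [turn_norm]
      exact tendsto_inv_atTop_zero.comp tendsto_norm_cobounded_atTop
    refine ((OnePoint.continuous_coe.tendsto 0).comp h0).congr' ?_
    filter_upwards [tendsto_norm_cobounded_atTop.eventually (eventually_gt_atTop (0 : ℝ))] with y hy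
    exact (swapFun_coe (norm_pos_iff.1 hy)).symm
  | coe y =>
    rw [OnePoint.continuousAt_coe]
    rcases eq_or_ne y 0 with rfl | hy
    · rw [ContinuousAt, Function.comp_apply, swapFun_zero, ← nhdsNE_sup_pure, tendsto_sup]
      refine ⟨?_, ?_⟩
      · have h0 : Tendsto turn (𝓝[≠] (0 : Euc4)) (Bornology.cobounded Euc4) := by
          rw [← tendsto_norm_atTop_iff_cobounded]
          simp only [turn_norm]
          exact tendsto_inv_nhdsGT_zero.comp tendsto_norm_nhdsNE_zero
        have h1 : Tendsto ((↑) : Euc4 → OnePoint Euc4) (Bornology.cobounded Euc4) (𝓝 (OnePoint.infty : OnePoint Euc4)) := by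
          rw [Metric.cobounded_eq_cocompact, ← coclosedCompact_eq_cocompact]
          exact OnePoint.tendsto_coe_infty
        refine (h1.comp h0).congr' ?_
        filter_upwards [self_mem_nhdsWithin] with z hz
        exact (swapFun_coe hz).symm
      · rw [tendsto_pure_left]
        intro s hs
        rw [Function.comp_apply, swapFun_zero]
        exact mem_of_mem_nhds hs
    · refine ((OnePoint.continuous_coe.continuousAt).comp
        (contDiffAt_turn hy).continuousAt).congr ?_
      filter_upwards [isOpen_ne.mem_nhds hy] with z hz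
      exact (swapFun_coe hz).symm

/-- The exchange of the two poles as a homeomorphism. -/
def swapHomeo : S4 ≃ₜ S4 where
  toFun := swapFun
  invFun := swapFun
  left_inv := swapFun_swapFun
  right_inv := swapFun_swapFun
  continuous_toFun := continuous_swapFun
  continuous_invFun := continuous_swapFun

/-- The chart away from the point at infinity. -/
def chartN : OpenPartialHomeomorph S4 Euc4 :=
  (OnePoint.isOpenEmbedding_coe.toOpenPartialHomeomorph ((↑) : Euc4 → OnePoint Euc4)).symm

/-- The chart around the point at infinity. -/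
def chartS : OpenPartialHomeomorph S4 Euc4 := swapHomeo.toOpenPartialHomeomorph.trans chartN

theorem chartN_source : chartN.source = Set.range ((↑) : Euc4 → OnePoint Euc4) :=
  OnePoint.isOpenEmbedding_coe.toOpenPartialHomeomorph_target _

theorem chartN_coe (y : Euc4) : chartN ((y : OnePoint Euc4) : S4) = y :=
  OnePoint.isOpenEmbedding_coe.toOpenPartialHomeomorph_left_inv

theorem chartN_symm (y : Euc4) : chartN.symm y = ((y : OnePoint Euc4) : S4) := rfl

theorem chartS_apply (p : S4) : chartS p = chartN (swapFun p) := rfl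

theorem chartS_symm (y : Euc4) : chartS.symm y = (swapFun (y : OnePoint Euc4) : S4) := rfl

open Classical in
/-- The two charts. -/
instance : ChartedSpace Euc4 S4 where
  atlas := {chartN, chartS}
  chartAt p := if p = (OnePoint.infty : OnePoint Euc4) then chartS else chartN
  mem_chart_source p := by
    split
    next h =>
      subst h
      refine ⟨Set.mem_univ _, ?_⟩
      show swapFun (OnePoint.infty : OnePoint Euc4) ∈ chartN.source
      rw [swapFun_infty, chartN_source]
      exact Set.mem_range_self _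
    next h =>
      rw [chartN_source]
      exact OnePoint.ne_infty_iff_exists.1 h
  chart_mem_atlas p := by split <;> simp

theorem chart_cases (p : S4) : chartAt Euc4 p = chartN ∨ chartAt Euc4 p = chartS := by
  classical
  show (if p = (OnePoint.infty : OnePoint Euc4) then chartS else chartN) = chartN ∨ _
  by_cases h : p = (OnePoint.infty : OnePoint Euc4)
  · exact .inr (if_pos h)
  · exact .inl (if_neg h)

/-- A change of charts is the identity or the turn. -/
theorem change_cases {e e' : OpenPartialHomeomorph S4 Euc4} (he : e = chartN ∨ e = chartS)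
    (he' : e' = chartN ∨ e' = chartS) :
    (∀ y ∈ (e.symm.trans e').source, e.symm.trans e' y = y) ∨
      ∀ y ∈ (e.symm.trans e').source, y ≠ 0 ∧ e.symm.trans e' y = turn y := by
  have mixed : ∀ y : Euc4, swapFun (y : OnePoint Euc4) ∈ chartN.source →
      y ≠ 0 ∧ chartN (swapFun (y : OnePoint Euc4)) = turn y := by
    intro y hy
    have h0 : y ≠ 0 := by
      rintro rfl
      rw [chartN_source, swapFun_zero] at hy
      exact OnePoint.infty_notMem_range_coe hy
    exact ⟨h0, by rw [swapFun_coe h0]; exact chartN_coe _⟩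
  rcases he with rfl | rfl <;> rcases he' with rfl | rfl
  · exact .inl fun y _ => chartN_coe y
  · exact .inr fun y hy => mixed y hy.2.2
  · exact .inr fun y hy => mixed y hy.2
  · refine .inl fun y _ => ?_
    show chartN (swapFun (swapFun (y : OnePoint Euc4))) = y
    rw [swapFun_swapFun]
    exact chartN_coe y

instance : IsManifold (modelWithCornersSelf ℝ Euc4) ∞ S4 := by
  refine isManifold_of_contDiffOn _ _ _ fun e e' he he' => ?_
  have hm : ∀ {f : OpenPartialHomeomorph S4 Euc4}, f ∈ atlas Euc4 S4 → f = chartN ∨ f = chartS :=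
    fun {f} hf => hf
  simp only [modelWithCornersSelf_coe, modelWithCornersSelf_coe_symm, Function.id_comp,
    Function.comp_id, Set.preimage_id, Set.range_id, Set.inter_univ]
  rcases change_cases (hm he) (hm he') with h | h
  · exact contDiffOn_id.congr h
  · exact ContDiffOn.congr (fun y hy => (contDiffAt_turn (h y hy).1).contDiffWithinAt)
      fun y hy => (h y hy).2

/-- The Jacobian of the turn. -/
theorem jac_turn {y : Euc4} (hy : y ≠ 0) : jac turn y = Matrix.of fun i j =>
    flipSign i * ((‖y‖ ^ 2)⁻¹ * (1 : M4) i j - 2 * (‖y‖ ^ 2)⁻¹ ^ 2 * (y i * y j)) := by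
  ext i j
  have hn : ‖y‖ ^ 2 ≠ 0 := by simp [hy]
  have hp : HasFDerivAt (fun z : Euc4 => z i) (PiLp.proj (𝕜 := ℝ) 2 (fun _ : Fin 4 => ℝ) i) y :=
    (PiLp.proj (𝕜 := ℝ) 2 (fun _ : Fin 4 => ℝ) i).hasFDerivAt
  have h1 : HasFDerivAt (fun z : Euc4 => (‖z‖ ^ 2)⁻¹)
      ((-((‖y‖ ^ 2) ^ 2)⁻¹) • ((2 : ℕ) • innerSL ℝ y)) y := by
    have := (hasDerivAt_inv hn).comp_hasFDerivAt y (hasStrictFDerivAt_norm_sq y).hasFDerivAt
    simpa [Function.comp_def] using this
  have h := h1.fun_mul (hp.const_mul (flipSign i))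
  show pd (fun z => turn z i) j y = _
  simp only [turn_apply, Matrix.of_apply]
  rw [pd_of_hasFDerivAt h j]
  by_cases hij : i = j
  · subst hij
    simp [EuclideanSpace.inner_single_right]
    field_simp
    ring
  · simp [EuclideanSpace.inner_single_right, hij]
    field_simp

theorem turn_compat {y : Euc4} (hy : y ≠ 0) :
    roundG y = (jac turn y).transpose * roundG (turn y) * jac turn y := by
  have hn : ‖y‖ ^ 2 ≠ 0 := by simp [hy]
  set r := (‖y‖ ^ 2)⁻¹
  have hr : r ≠ 0 := inv_ne_zero hn
  have key : (jac turn y).transpose * jac turn y = (r ^ 2) • (1 : M4) := by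
    rw [jac_turn hy]
    ext a b
    have hs : ∑ i, y i * y i = r⁻¹ := by rw [inv_inv, norm_sq_sum]
    calc ∑ i, (flipSign i * (r * (1 : M4) i a - 2 * r ^ 2 * (y i * y a))) *
          (flipSign i * (r * (1 : M4) i b - 2 * r ^ 2 * (y i * y b)))
        = ∑ i, ((1 : M4) i a * (r ^ 2 * (1 : M4) i b - 2 * r ^ 3 * (y i * y b)) -
            (1 : M4) i b * (2 * r ^ 3 * (y i * y a)) + 4 * r ^ 4 * (y a * y b) * (y i * y i)) :=
          Finset.sum_congr rfl fun i _ => by
            linear_combination ((r * (1 : M4) i a - 2 * r ^ 2 * (y i * y a)) *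
              (r * (1 : M4) i b - 2 * r ^ 2 * (y i * y b))) * flipSign_sq i
      _ = r ^ 2 * (1 : M4) a b := by
          rw [Finset.sum_add_distrib, Finset.sum_sub_distrib, ← Finset.mul_sum, hs]
          simp [one_apply]
          field_simp
          ring
      _ = _ := by simp
  rw [roundG, roundG, Matrix.mul_smul, Matrix.mul_one, Matrix.smul_mul, key, smul_smul]
  congr 1
  rw [conf, conf, turn_norm_sq]
  have : ‖y‖ ^ 2 + 1 ≠ 0 := by positivity
  simp only [r]
  field_simp
  ring

theorem det_jac_turn {y : Euc4} (hy : y ≠ 0) : 0 < (jac turn y).det := by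
  have hn : ‖y‖ ^ 2 ≠ 0 := by simp [hy]
  set r := (‖y‖ ^ 2)⁻¹
  have e : jac turn y = Matrix.diagonal flipSign * (r • (1 +
      replicateCol Unit (fun i => -2 * r * y i) * replicateRow Unit fun j => y j)) := by
    rw [jac_turn hy]
    ext i j
    rw [Matrix.diagonal_mul]
    simp only [Matrix.smul_apply, Matrix.add_apply, smul_eq_mul, Matrix.mul_apply,
      Fintype.sum_unique, replicateCol_apply, replicateRow_apply, Matrix.of_apply]
    ring
  have hd : ((fun j => y j) ⬝ᵥ fun i => -2 * r * y i) = -2 := by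
    simp only [dotProduct]
    calc ∑ i, y i * (-2 * r * y i) = -2 * r * ∑ i, y i * y i := by
          rw [Finset.mul_sum]; exact Finset.sum_congr rfl fun i _ => by ring
      _ = -2 := by rw [← norm_sq_sum, mul_assoc, inv_mul_cancel₀ hn, mul_one]
  rw [e, det_mul, det_diagonal, det_smul, det_one_add_replicateCol_mul_replicateRow, hd,
    Fin.prod_univ_four]
  simp [flipSign, Fin.ext_iff]
  norm_num
  positivity

/-- The round metric has positive sectional curvature. -/
theorem sec_round_pos (y : Euc4) {u v : Fin 4 → ℝ} (h : LinearIndependent ℝ ![u, v]) :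
    0 < ∑ i, ∑ j, ∑ k, ∑ l, riem roundG y i j k l * u i * v j * u k * v l := by
  have e : ∑ i, ∑ j, ∑ k, ∑ l, riem roundG y i j k l * u i * v j * u k * v l =
      conf y ^ 2 * ((u ⬝ᵥ u) * (v ⬝ᵥ v) - (u ⬝ᵥ v) ^ 2) := by
    simp only [riem_round, roundG, Matrix.smul_apply, smul_eq_mul, dotProduct, Fin.sum_univ_four,
      one_apply, Fin.ext_iff]
    norm_num
    ring
  rw [e]
  refine mul_pos (pow_pos (conf_pos y) 2) ?_
  have hv : v ≠ 0 := by simpa using h.ne_zero 1
  have hvv : 0 < v ⬝ᵥ v :=
    lt_of_le_of_ne (Finset.sum_nonneg fun i _ => mul_self_nonneg (v i))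
      fun hz => hv (dotProduct_self_eq_zero.1 hz.symm)
  set w := (v ⬝ᵥ v) • u + (-(u ⬝ᵥ v)) • v with hw
  have hwne : w ≠ 0 := fun hz => hvv.ne' (LinearIndependent.pair_iff.1 h _ _ hz).1
  have hww : 0 < w ⬝ᵥ w :=
    lt_of_le_of_ne (Finset.sum_nonneg fun i _ => mul_self_nonneg (w i))
      fun hz => hwne (dotProduct_self_eq_zero.1 hz.symm)
  have hexp : w ⬝ᵥ w = (v ⬝ᵥ v) * ((u ⬝ᵥ u) * (v ⬝ᵥ v) - (u ⬝ᵥ v) ^ 2) := by
    simp only [hw, add_dotProduct, dotProduct_add, smul_dotProduct, dotProduct_smul, smul_eq_mul,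
      dotProduct_comm v u]
    ring
  exact pos_of_mul_pos_right (hexp ▸ hww) hvv.le

/-- The hypotheses of the classification have a model. -/
theorem exists_model_pos : ∃ (X : Type) (_ : TopologicalSpace X) (_ : ChartedSpace Euc4 X)
    (_ : IsManifold (modelWithCornersSelf ℝ Euc4) ∞ X) (_ : T2Space X) (_ : CompactSpace X)
    (_ : ConnectedSpace X) (G : X → Euc4 → M4),
      IsMetricAtlas G ∧ IsOrientedAtlas X ∧ IsEinsteinAtlas G ∧
      IsSecNonnegAtlas G ∧ IsSecPosAtlas G := by
  have jac_cases : ∀ p q : S4, ∀ y ∈ (tr p q).source,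
      (tr p q y = y ∧ jac (tr p q) y = 1) ∨
        y ≠ 0 ∧ tr p q y = turn y ∧ jac (tr p q) y = jac turn y := by
    intro p q y hy
    have cong : ∀ f : Euc4 → Euc4, (∀ z ∈ (tr p q).source, tr p q z = f z) →
        jac (tr p q) y = jac f y := fun f hf => by
      ext i j
      exact Local.pd_congr (tr p q).open_source hy (fun z hz => by rw [hf z hz]) j
    rcases change_cases (chart_cases p) (chart_cases q) with h | h
    · refine .inl ⟨h y hy, (cong id h).trans ?_⟩
      ext i j
      show pd (fun z : Euc4 => z i) j y = _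
      have hp : HasFDerivAt (fun z : Euc4 => z i) (PiLp.proj (𝕜 := ℝ) 2 (fun _ : Fin 4 => ℝ) i) y :=
        (PiLp.proj (𝕜 := ℝ) 2 (fun _ : Fin 4 => ℝ) i).hasFDerivAt
      rw [pd_of_hasFDerivAt hp j]
      by_cases hij : i = j
      · subst hij; simp
      · simp [hij]
    · exact .inr ⟨(h y hy).1, (h y hy).2, cong turn fun z hz => (h z hz).2⟩
  refine ⟨S4, inferInstance, inferInstance, inferInstance, inferInstance, inferInstance,
    inferInstance, fun _ => roundG, ⟨fun p i j => ?_, fun p y i j => ?_, fun p y _ => ?_,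
      fun p q y hy => ?_⟩, fun p q y hy => ?_, fun p y _ i j => ric_round y i j,
    fun p y _ u v => sec_round y u v, fun p y _ u v huv => sec_round_pos y huv⟩
  · refine ContDiff.contDiffOn ?_
    simp only [roundG, Matrix.smul_apply, smul_eq_mul, conf]
    exact (contDiff_const.mul ((((contDiff_const.add (contDiff_norm_sq ℝ)).pow 2)).inv
      fun z => pow_ne_zero 2 (one_add_norm_sq_pos z).ne')).mul contDiff_const
  · simp [roundG, one_apply, eq_comm]
  · exact PosDef.one.smul (conf_pos y)
  · rcases jac_cases p q y hy with ⟨e1, e2⟩ | ⟨h0, e1, e2⟩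
    · rw [e1, e2, Matrix.transpose_one, Matrix.one_mul, Matrix.mul_one]
    · rw [e1, e2]; exact turn_compat h0
  · rcases jac_cases p q y hy with ⟨-, e2⟩ | ⟨h0, -, e2⟩
    · rw [e2, det_one]; exact one_pos
    · rw [e2]; exact det_jac_turn h0

theorem exists_model : ∃ (X : Type) (_ : TopologicalSpace X) (_ : ChartedSpace Euc4 X)
    (_ : IsManifold (modelWithCornersSelf ℝ Euc4) ∞ X) (_ : T2Space X) (_ : CompactSpace X)
    (_ : ConnectedSpace X) (G : X → Euc4 → M4),
      IsMetricAtlas G ∧ IsOrientedAtlas X ∧ IsEinsteinAtlas G ∧ IsSecNonnegAtlas G := by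
  obtain ⟨X, i1, i2, i3, i4, i5, i6, G, h1, h2, h3, h4, -⟩ := exists_model_pos
  exact ⟨X, i1, i2, i3, i4, i5, i6, G, h1, h2, h3, h4⟩

end

end Vale.Agent.P211.Main
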