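import Vale.Agent.P211.Main.Assemble
import Vale.Agent.P211.Main.Constant
import Vale.Agent.P211.Main.Sphere
import Vale.Agent.P211.Cert.Regular

/-!
# P211: the classification from the two inputs

`hH`, `hT` are the data side (a checked vector) and `hD` the analytic side (the dichotomy from the
pointwise certificate).  Intermediate theorem: a hand-in follows once both inputs are proved.
-/

open scoped ContDiff

namespace Vale.Agent.P211.Main

noncomputable section

universe u

/-- From a checked vector and the analytic passage to the classification. -/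
theorem classification_of_inputs {V : Cert.Vec} {ρ : ℝ → ℝ → ℝ} {c : ℝ} (hH : Cert.Holds V ρ)
    (hT : Cert.GoodTarget ρ c)
    (hD : ∀ (Y : Type u) [TopologicalSpace Y] [T2Space Y] [MeasurableSpace Y] [CompactSpace Y]
      [BorelSpace Y] [PreconnectedSpace Y] (S : Analytic.ScalarGeom Y),
      (∀ κ > 0, ∀ Φ : ℝ, Nonempty (Cert.Pointwise (Cert.gateWeight ρ) κ Φ)) → ScalarDichotomy S)
    {X : Type u} [TopologicalSpace X] [ChartedSpace Euc4 X]
    [IsManifold (modelWithCornersSelf ℝ Euc4) ∞ X] [T2Space X] [CompactSpace X] [ConnectedSpace X]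
    {G : X → Euc4 → M4} (h : IsMetricAtlas G) (hor : IsOrientedAtlas X) (hE : IsEinsteinAtlas G)
    (hK : IsSecNonnegAtlas G) :
    ((∀ p, ∀ y ∈ (chartAt Euc4 p).target, ¬ WpNeZeroAt (G p) y) ∨
      (∀ p, ∀ y ∈ (chartAt Euc4 p).target, ¬ WmNeZeroAt (G p) y) ∨
        ∀ p, ∀ y ∈ (chartAt Euc4 p).target, (∀ m i j k l, covRiem (G p) y m i j k l = 0) ∧
          ∃ Q : M4, Q.transpose * G p y * Q = 1 ∧ inFrame Q (riem (G p) y) = prodTen) ∧
    ∀ p, ∀ y ∈ (chartAt Euc4 p).target, (¬ WpNeZeroAt (G p) y ∧ ¬ WmNeZeroAt (G p) y ↔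
      ∀ i j k l, riem (G p) y i j k l = G p y i k * G p y j l - G p y i l * G p y j k) := by
  refine ⟨?_, fun p y hy => riem_eq_round_iff (Global.isMetricOn h p) (hE p) hy⟩
  let inst : MeasurableSpace X := borel X
  have instB : BorelSpace X := ⟨rfl⟩
  exact classify_of_dichotomy h hor hE hK
    (hD X (geom h hE) fun κ hκ Φ => Cert.pointwise_of_holds hH hT κ hκ Φ)

/-- The statement to hand in, from the same inputs: the classification and a model of its
hypotheses. -/
theorem classification_statement_of_inputs {V : Cert.Vec} {ρ : ℝ → ℝ → ℝ} {c : ℝ}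
    (hH : Cert.Holds V ρ) (hT : Cert.GoodTarget ρ c)
    (hD : ∀ (Y : Type u) [TopologicalSpace Y] [T2Space Y] [MeasurableSpace Y] [CompactSpace Y]
      [BorelSpace Y] [PreconnectedSpace Y] (S : Analytic.ScalarGeom Y),
      (∀ κ > 0, ∀ Φ : ℝ, Nonempty (Cert.Pointwise (Cert.gateWeight ρ) κ Φ)) → ScalarDichotomy S) :
    (∀ (X : Type u) [TopologicalSpace X] [ChartedSpace Euc4 X]
      [IsManifold (modelWithCornersSelf ℝ Euc4) ∞ X] [T2Space X] [CompactSpace X] [ConnectedSpace X]
      (G : X → Euc4 → M4), IsMetricAtlas G → IsOrientedAtlas X → IsEinsteinAtlas G →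
      IsSecNonnegAtlas G →
        ((∀ p, ∀ y ∈ (chartAt Euc4 p).target, ¬ WpNeZeroAt (G p) y) ∨
          (∀ p, ∀ y ∈ (chartAt Euc4 p).target, ¬ WmNeZeroAt (G p) y) ∨
            ∀ p, ∀ y ∈ (chartAt Euc4 p).target, (∀ m i j k l, covRiem (G p) y m i j k l = 0) ∧
              ∃ Q : M4, Q.transpose * G p y * Q = 1 ∧ inFrame Q (riem (G p) y) = prodTen) ∧
        ∀ p, ∀ y ∈ (chartAt Euc4 p).target, (¬ WpNeZeroAt (G p) y ∧ ¬ WmNeZeroAt (G p) y ↔
          ∀ i j k l, riem (G p) y i j k l =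
            G p y i k * G p y j l - G p y i l * G p y j k)) ∧
    ∃ (X : Type) (_ : TopologicalSpace X) (_ : ChartedSpace Euc4 X)
      (_ : IsManifold (modelWithCornersSelf ℝ Euc4) ∞ X) (_ : T2Space X) (_ : CompactSpace X)
      (_ : ConnectedSpace X) (G : X → Euc4 → M4),
      IsMetricAtlas G ∧ IsOrientedAtlas X ∧ IsEinsteinAtlas G ∧ IsSecNonnegAtlas G :=
  ⟨fun X _ _ _ _ _ _ _ h hor hE hK => classification_of_inputs hH hT hD h hor hE hK, exists_model⟩

end

end Vale.Agent.P211.Main
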