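import Vale.Agent.P211.Main.Dichotomy
import Vale.Agent.P211.Statement.Positive

/-!
# P211: with positive sectional curvature one Weyl half vanishes; the statement to hand in
-/

open Matrix
open scoped ContDiff

namespace Vale.Agent.P211.Main

noncomputable section

/-- The curvature of a product of two spheres has a plane of curvature zero. -/
theorem not_secPos_of_prodTen {G : Euc4 → M4} {U : Set Euc4} {y : Euc4} (hy : y ∈ U) {Q : M4}
    (hQ : Q.transpose * G y * Q = 1) (hR : inFrame Q (riem G y) = prodTen) : ¬ SecPos G U := by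
  intro hK
  have hind : LinearIndependent ℝ ![fun i => Q i 0, fun i => Q i 2] := by
    have hdet : IsUnit Q := by
      have h1 : IsUnit (Q.transpose * G y * Q).det := by rw [hQ]; simp
      rw [Matrix.det_mul, IsUnit.mul_iff] at h1
      exact (Matrix.isUnit_iff_isUnit_det Q).2 h1.2
    have hc := Matrix.linearIndependent_cols_of_isUnit hdet
    have e : (![fun i => Q i 0, fun i => Q i 2] : Fin 2 → Fin 4 → ℝ) = Q.col ∘ ![0, 2] := by
      funext a i
      fin_cases a <;> rfl
    rw [e]
    exact hc.comp _ (by decide)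
  have hpos := hK y hy _ _ hind
  have hzero := congrFun (congrFun (congrFun (congrFun hR 0) 2) 0) 2
  have h0 : prodTen 0 2 0 2 = 0 := by simp [prodTen]
  rw [h0] at hzero
  exact hpos.ne' hzero

universe u

/-- From a checked vector to the statement to hand in: the classification for nonnegative
curvature, the dichotomy for positive curvature, and a model of the hypotheses. -/
theorem classification_positive_of_holds {V : Cert.Vec} {ρ : ℝ → ℝ → ℝ} {c : ℝ}
    (hH : Cert.Holds V ρ) (hT : Cert.GoodTarget ρ c) :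
    (∀ (X : Type u) [TopologicalSpace X] [ChartedSpace Euc4 X]
      [IsManifold (modelWithCornersSelf ℝ Euc4) ∞ X] [T2Space X] [CompactSpace X] [ConnectedSpace X]
      (G : X → Euc4 → M4), IsMetricAtlas G → IsOrientedAtlas X → IsEinsteinAtlas G →
      IsSecNonnegAtlas G →
        ((∀ p, ∀ y ∈ (chartAt Euc4 p).target, ¬ WpNeZeroAt (G p) y) ∨
          (∀ p, ∀ y ∈ (chartAt Euc4 p).target, ¬ WmNeZeroAt (G p) y) ∨
            ∀ p, ∀ y ∈ (chartAt Euc4 p).target, (∀ m i j k l, covRiem (G p) y m i j k l = 0) ∧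
              ∃ Q : M4, Q.transpose * G p y * Q = 1 ∧ inFrame Q (riem (G p) y) = prodTen) ∧
        (IsSecPosAtlas G →
          (∀ p, ∀ y ∈ (chartAt Euc4 p).target, ¬ WpNeZeroAt (G p) y) ∨
            ∀ p, ∀ y ∈ (chartAt Euc4 p).target, ¬ WmNeZeroAt (G p) y) ∧
        ∀ p, ∀ y ∈ (chartAt Euc4 p).target, (¬ WpNeZeroAt (G p) y ∧ ¬ WmNeZeroAt (G p) y ↔
          ∀ i j k l, riem (G p) y i j k l =
            G p y i k * G p y j l - G p y i l * G p y j k)) ∧
    ∃ (X : Type) (_ : TopologicalSpace X) (_ : ChartedSpace Euc4 X)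
      (_ : IsManifold (modelWithCornersSelf ℝ Euc4) ∞ X) (_ : T2Space X) (_ : CompactSpace X)
      (_ : ConnectedSpace X) (G : X → Euc4 → M4),
      IsMetricAtlas G ∧ IsOrientedAtlas X ∧ IsEinsteinAtlas G ∧ IsSecNonnegAtlas G ∧
        IsSecPosAtlas G := by
  refine ⟨fun X _ _ _ _ _ _ G h hor hE hK => ?_, exists_model_pos⟩
  obtain ⟨h1, h2⟩ := classification_of_holds hH hT h hor hE hK
  refine ⟨h1, fun hpos => ?_, h2⟩
  rcases h1 with hp | hm | hprod
  · exact Or.inl hp
  · exact Or.inr hm
  · obtain ⟨p⟩ := (inferInstance : Nonempty X)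
    have hy : chartAt Euc4 p p ∈ (chartAt Euc4 p).target :=
      (chartAt Euc4 p).map_source (mem_chart_source Euc4 p)
    obtain ⟨-, Q, hQ, hR⟩ := hprod p _ hy
    exact absurd (hpos p) (not_secPos_of_prodTen hy hQ hR)

end

end Vale.Agent.P211.Main
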