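import Vale.Agent.P211.Local.Calc
import Vale.Agent.P211.Alg.SelfDual.Sanity

/-!
# P211: the curvature of the round metric in stereographic coordinates
-/

open Matrix
open scoped ContDiff

namespace Vale.Agent.P211.Main

noncomputable section

/-- The conformal factor of stereographic coordinates. -/
def conf (y : Euc4) : ℝ := 4 * ((1 + ‖y‖ ^ 2) ^ 2)⁻¹

/-- Half the logarithmic derivative of the conformal factor. -/
def confU (y : Euc4) (i : Fin 4) : ℝ := -(2 * y i) * (1 + ‖y‖ ^ 2)⁻¹

/-- The round metric. -/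
def roundG (y : Euc4) : M4 := conf y • (1 : M4)

theorem norm_sq_sum (y : Euc4) : ‖y‖ ^ 2 = ∑ p, y p * y p := by
  rw [EuclideanSpace.norm_sq_eq]
  simp [pow_two]

theorem one_add_norm_sq_pos (y : Euc4) : 0 < 1 + ‖y‖ ^ 2 := by positivity

theorem conf_pos (y : Euc4) : 0 < conf y := by unfold conf; positivity

theorem pd_of_hasFDerivAt {f : Euc4 → ℝ} {L : Euc4 →L[ℝ] ℝ} {y : Euc4} (h : HasFDerivAt f L y)
    (i : Fin 4) : pd f i y = L (EuclideanSpace.single i 1) := by rw [pd, h.fderiv]

theorem hasFDerivAt_inv_one_add (y : Euc4) :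
    HasFDerivAt (fun z : Euc4 => (1 + ‖z‖ ^ 2)⁻¹)
      ((-((1 + ‖y‖ ^ 2) ^ 2)⁻¹) • ((2 : ℕ) • innerSL ℝ y)) y := by
  have h := ((hasStrictFDerivAt_norm_sq y).hasFDerivAt.const_add 1)
  have := (hasDerivAt_inv (one_add_norm_sq_pos y).ne').comp_hasFDerivAt y h
  simpa [Function.comp_def] using this

theorem pd_conf (y : Euc4) (i : Fin 4) : pd conf i y = 2 * conf y * confU y i := by
  have h := (((hasFDerivAt_inv_one_add y).pow 2).const_mul (4 : ℝ))
  have e : conf = fun z => 4 * (1 + ‖z‖ ^ 2)⁻¹ ^ 2 := funext fun z => by rw [conf, inv_pow]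
  rw [e, pd_of_hasFDerivAt h i]
  simp [confU, EuclideanSpace.inner_single_right]
  ring

theorem pd_confU (y : Euc4) (i j : Fin 4) : pd (fun z => confU z j) i y =
    -(2 * (1 + ‖y‖ ^ 2)⁻¹) * (1 : M4) i j + confU y i * confU y j := by
  have hp : HasFDerivAt (fun z : Euc4 => z j) (PiLp.proj (𝕜 := ℝ) 2 (fun _ : Fin 4 => ℝ) j) y :=
    (PiLp.proj (𝕜 := ℝ) 2 (fun _ : Fin 4 => ℝ) j).hasFDerivAt
  have h := ((hp.const_mul (2 : ℝ)).fun_neg).fun_mul (hasFDerivAt_inv_one_add y)
  have e : (fun z => confU z j) = fun z : Euc4 => -(2 * z j) * (1 + ‖z‖ ^ 2)⁻¹ := rfl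
  rw [e, pd_of_hasFDerivAt h i]
  by_cases hij : i = j
  · subst hij
    simp [confU, EuclideanSpace.inner_single_right]
    field_simp
    ring
  · simp [confU, EuclideanSpace.inner_single_right, hij, Ne.symm hij]
    field_simp

theorem gam_round (y : Euc4) (k i j : Fin 4) : gam roundG y k i j =
    (1 : M4) k j * confU y i + (1 : M4) k i * confU y j - (1 : M4) i j * confU y k := by
  have hc := conf_pos y
  have hinv : (roundG y)⁻¹ = (conf y)⁻¹ • (1 : M4) := by
    refine Matrix.inv_eq_right_inv ?_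
    simp [roundG, smul_smul, hc.ne']
  have hd : DifferentiableAt ℝ conf y := by
    have e : conf = fun z => 4 * (1 + ‖z‖ ^ 2)⁻¹ ^ 2 := funext fun z => by rw [conf, inv_pow]
    rw [e]
    exact (((hasFDerivAt_inv_one_add y).pow 2).const_mul (4 : ℝ)).differentiableAt
  have e : ∀ a b c, pd (fun z => roundG z a b) c y = (1 : M4) a b * (2 * conf y * confU y c) := by
    intro a b c
    have hg : (fun z => roundG z a b) = fun z => conf z * (1 : M4) a b := funext fun z => by
      simp [roundG]
    rw [hg, Local.pd_mul hd (differentiableAt_const _), Local.pd_const, pd_conf]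
    ring
  simp only [gam, hinv, e, Matrix.smul_apply, smul_eq_mul]
  rw [Fin.sum_univ_four]
  fin_cases k <;> fin_cases i <;> fin_cases j <;>
    (simp [one_apply, Fin.ext_iff] <;> field_simp)

/-- The quadratic part of the curvature. -/
theorem gam_gam (y : Euc4) (m l i j : Fin 4) :
    ∑ p, gam roundG y m i p * gam roundG y p j l =
      (1 : M4) m l * (confU y i * confU y j) + (1 : M4) m j * (confU y i * confU y l) -
        (1 : M4) j l * (confU y i * confU y m) + 2 * (1 : M4) m i * (confU y l * confU y j) -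
        (1 : M4) m i * (1 : M4) j l * ∑ p, confU y p * confU y p -
        (1 : M4) i l * (confU y j * confU y m) - (1 : M4) i j * (confU y l * confU y m) +
        (1 : M4) j l * (confU y i * confU y m) := by
  have s1 : ∀ (a : Fin 4) (f : Fin 4 → ℝ), ∑ p, (1 : M4) a p * f p = f a := fun a f => by
    simp [one_apply]
  have s2 : ∀ (a : Fin 4) (f : Fin 4 → ℝ), ∑ p, (1 : M4) p a * f p = f a := fun a f => by
    simp [one_apply]
  simp only [gam_round]
  calc ∑ p, ((1 : M4) m p * confU y i + (1 : M4) m i * confU y p - (1 : M4) i p * confU y m) *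
        ((1 : M4) p l * confU y j + (1 : M4) p j * confU y l - (1 : M4) j l * confU y p)
      = ∑ p, (1 : M4) m p * (confU y i *
          ((1 : M4) p l * confU y j + (1 : M4) p j * confU y l - (1 : M4) j l * confU y p)) +
        ((1 : M4) m i * (confU y j * ∑ p, (1 : M4) p l * confU y p +
          confU y l * ∑ p, (1 : M4) p j * confU y p -
          (1 : M4) j l * ∑ p, confU y p * confU y p)) -
        ∑ p, (1 : M4) i p * (confU y m *
          ((1 : M4) p l * confU y j + (1 : M4) p j * confU y l - (1 : M4) j l * confU y p)) := by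
        simp only [Finset.mul_sum, ← Finset.sum_add_distrib, ← Finset.sum_sub_distrib]
        exact Finset.sum_congr rfl fun p _ => by ring
    _ = _ := by rw [s1, s1, s2, s2]; ring

theorem riemUp_round (y : Euc4) (m l i j : Fin 4) : riemUp roundG y m l i j =
    conf y * ((1 : M4) m i * (1 : M4) j l - (1 : M4) m j * (1 : M4) i l) := by
  have hd : ∀ k, DifferentiableAt ℝ (fun z => confU z k) y := fun k =>
    (((PiLp.proj (𝕜 := ℝ) 2 (fun _ : Fin 4 => ℝ) k).hasFDerivAt.const_mul (2 : ℝ)).fun_neg.fun_mul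
      (hasFDerivAt_inv_one_add y)).differentiableAt
  have e : ∀ a b c k, pd (fun z => gam roundG z a b c) k y =
      (1 : M4) a c * pd (fun z => confU z b) k y + (1 : M4) a b * pd (fun z => confU z c) k y -
        (1 : M4) b c * pd (fun z => confU z a) k y := by
    intro a b c k
    simp only [gam_round]
    rw [Local.pd_sub (((differentiableAt_const _).fun_mul (hd b)).fun_add
        ((differentiableAt_const _).fun_mul (hd c))) ((differentiableAt_const _).fun_mul (hd a)),
      Local.pd_add ((differentiableAt_const _).fun_mul (hd b)) ((differentiableAt_const _).fun_mul (hd c)),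
      Local.pd_mul (differentiableAt_const _) (hd b), Local.pd_mul (differentiableAt_const _) (hd c),
      Local.pd_mul (differentiableAt_const _) (hd a), Local.pd_const, Local.pd_const,
      Local.pd_const]
    ring
  rw [riemUp, Finset.sum_sub_distrib, gam_gam, gam_gam, e, e]
  simp only [pd_confU]
  have hU : ∑ p, confU y p * confU y p = 4 * ‖y‖ ^ 2 * (1 + ‖y‖ ^ 2)⁻¹ ^ 2 := by
    rw [norm_sq_sum, Finset.mul_sum, Finset.sum_mul]
    exact Finset.sum_congr rfl fun p _ => by rw [confU, norm_sq_sum]; ring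
  have key : conf y = 4 * (1 + ‖y‖ ^ 2)⁻¹ - 4 * ‖y‖ ^ 2 * (1 + ‖y‖ ^ 2)⁻¹ ^ 2 := by
    have := one_add_norm_sq_pos y
    rw [conf]
    field_simp
    ring
  have c : ∀ a b : Fin 4, (1 : M4) a b = (1 : M4) b a := fun a b => by simp [one_apply, eq_comm]
  rw [hU, key, c j i, c i m, c j m]
  ring

theorem riem_round (y : Euc4) (i j k l : Fin 4) : riem roundG y i j k l =
    roundG y i k * roundG y j l - roundG y i l * roundG y j k := by
  have c : ∀ a b : Fin 4, (1 : M4) a b = (1 : M4) b a := fun a b => by simp [one_apply, eq_comm]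
  simp only [riem, riemUp_round, roundG, Matrix.smul_apply, smul_eq_mul]
  calc ∑ m, conf y * (1 : M4) k m *
        (conf y * ((1 : M4) m i * (1 : M4) j l - (1 : M4) m j * (1 : M4) i l))
      = conf y * (conf y * ((1 : M4) k i * (1 : M4) j l - (1 : M4) k j * (1 : M4) i l)) := by
        simp [one_apply]
    _ = _ := by rw [c k i, c k j]; ring

theorem ric_round (y : Euc4) (i j : Fin 4) : ric roundG y i j = 3 * roundG y i j := by
  rw [SelfDual.ric_eq_sum_riemUp (fun z a b => by simp [roundG, one_apply, eq_comm])]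
  simp only [riemUp_round, roundG, Matrix.smul_apply, smul_eq_mul, Fin.sum_univ_four]
  fin_cases i <;> fin_cases j <;> simp [one_apply, Fin.ext_iff] <;> ring

theorem sec_round (y : Euc4) (u v : Fin 4 → ℝ) :
    0 ≤ ∑ i, ∑ j, ∑ k, ∑ l, riem roundG y i j k l * u i * v j * u k * v l := by
  have e : ∑ i, ∑ j, ∑ k, ∑ l, riem roundG y i j k l * u i * v j * u k * v l =
      conf y ^ 2 * ((u ⬝ᵥ u) * (v ⬝ᵥ v) - (u ⬝ᵥ v) ^ 2) := by
    simp only [riem_round, roundG, Matrix.smul_apply, smul_eq_mul, dotProduct, Fin.sum_univ_four,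
      one_apply, Fin.ext_iff]
    norm_num
    ring
  rw [e]
  refine mul_nonneg (sq_nonneg _) (sub_nonneg.2 ?_)
  have := Finset.sum_mul_sq_le_sq_mul_sq Finset.univ u v
  simpa [dotProduct, pow_two] using this

end

end Vale.Agent.P211.Main
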