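import Vale.Agent.P211.Global.Rules
import Vale.Agent.P211.Local.Chart

/-!
# P211: the Weyl halves as functions on the manifold
-/

open Matrix
open scoped ContDiff

namespace Vale.Agent.P211.Main

open Global

noncomputable section

/-- Two tops of the same matrix agree. -/
theorem isTop_unique {W : M3} {s t : ℝ} (hs : Spectral.IsTop W s) (ht : Spectral.IsTop W t) :
    s = t := by
  suffices h : ∀ {s t : ℝ}, Spectral.IsTop W s → Spectral.IsTop W t → ¬ s < t by
    rcases lt_trichotomy s t with h' | h' | h'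
    exacts [absurd h' (h hs ht), h', absurd h' (h ht hs)]
  intro s t hs ht hlt
  have hp : (W + s • 1 + (t - s) • (1 : M3)).PosDef :=
    PosDef.posSemidef_add hs.1 (PosDef.one.smul (by linarith))
  have := hp.det_pos
  rw [add_assoc, ← add_smul, add_sub_cancel, ht.2] at this
  exact lt_irrefl _ this

/-- The top of a conjugate. -/
theorem isTop_conj {R W : M3} (hR : R.transpose * R = 1) {t : ℝ} :
    Spectral.IsTop (Spectral.conj R W) t ↔ Spectral.IsTop W t := by
  have hd : R.det * R.det = 1 := by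
    have := congrArg Matrix.det hR
    rwa [det_mul, det_transpose, det_one] at this
  rw [Spectral.IsTop, Spectral.IsTop, Spectral.add_smul_one_conj hR, Spectral.posSemidef_conj hR,
    Spectral.conj, det_mul, det_mul, det_transpose, mul_right_comm, hd, one_mul]

variable {X : Type*} [TopologicalSpace X] [ChartedSpace Euc4 X]
variable {G : X → Euc4 → M4} (h : IsMetricAtlas G)

/-- The two triples. -/
def IsHalf (J : Fin 3 → M4) : Prop := J = Jp ∨ J = Jm

/-- A Weyl half in the frame at the point. -/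
def weylAt (J : Fin 3 → M4) (x : X) : M3 :=
  Local.wB J (G x) (frameAt h x) (chartAt Euc4 x x)

/-- The largest eigenvalue of the negative of a Weyl half. -/
def top (J : Fin 3 → M4) (x : X) : ℝ := Classical.epsilon (Spectral.IsTop (weylAt h J x))

/-- The smooth approximation of the top. -/
def spec (a : ℝ) (k : ℕ) (J : Fin 3 → M4) (x : X) : ℝ := Spectral.F a k (weylAt h J x)

variable [IsManifold (modelWithCornersSelf ℝ Euc4) ∞ X]
variable (hor : IsOrientedAtlas X)
include h hor

/-- The Weyl half reads in every chart as a rotation of the Weyl half there. -/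
theorem weylAt_conj {J : Fin 3 → M4} (hJ : IsHalf J) {p x : X}
    (hp : x ∈ (chartAt Euc4 p).source) :
    ∃ c : M3, c.transpose * c = 1 ∧
      weylAt h J x = Spectral.conj c (Local.wB J (G p) (frameAt h p) (chartAt Euc4 p x)) := by
  obtain ⟨hy, he⟩ := chart_mem_source (mem_chart_source Euc4 x) hp
  have hP : IsPosFrame (G p (chartAt Euc4 p x)) (pushFrame h p x) :=
    ⟨pushFrame_spec h hp, by
      rw [pushFrame, det_mul]
      exact mul_pos (hor x p _ hy) (ptFrame_spec h x).2⟩
  obtain ⟨⟨c, hc, -, hcP⟩, d, hd, -, hdM⟩ := SelfDual.weyl_frame_change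
    (riem (G p) (chartAt Euc4 p x))
    ((isFrameOn_frameAt h p).frame _ ((chartAt Euc4 p).map_source hp)) hP
  have e : ∀ K, weylAt h K x =
      block (inFrame (pushFrame h p x) (riem (G p) (chartAt Euc4 p x))) K K - 1 := fun K => by
    rw [weylAt, Local.wB, Local.frameRiem, riem_change h hy, he, pushFrame, SelfDual.inFrame_mul]
    rfl
  rcases hJ with rfl | rfl
  · exact ⟨c, hc, (e Jp).trans hcP⟩
  · exact ⟨d, hd, (e Jm).trans hdM⟩

theorem rd_spec (a : ℝ) (k : ℕ) {J : Fin 3 → M4} (hJ : IsHalf J) (p : X) {y : Euc4}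
    (hy : y ∈ (chartAt Euc4 p).target) :
    rd p (spec h a k J) y = Spectral.F a k (Local.wB J (G p) (frameAt h p) y) := by
  obtain ⟨c, hc, e⟩ := weylAt_conj h hor hJ ((chartAt Euc4 p).map_target hy)
  rw [rd, spec, e, Spectral.F_conj hc, (chartAt Euc4 p).right_inv hy]

variable (hE : IsEinsteinAtlas G) (hK : IsSecNonnegAtlas G)
include hE hK

omit hor [IsManifold (modelWithCornersSelf ℝ Euc4) ∞ X] in
theorem wB_top {J : Fin 3 → M4} (hJ : IsHalf J) (p : X) {y : Euc4}
    (hy : y ∈ (chartAt Euc4 p).target) :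
    (Local.wB J (G p) (frameAt h p) y).IsSymm ∧ (Local.wB J (G p) (frameAt h p) y).trace = 0 ∧
      ∃ t, Spectral.IsTop (Local.wB J (G p) (frameAt h p) y) t ∧ 0 ≤ t ∧ t ≤ 2 := by
  obtain ⟨⟨h1, h1t⟩, h2, h2t⟩ :=
    Local.wB_symm_trace (isMetricOn h p) (isFrameOn_frameAt h p) (hE p) hy
  obtain ⟨s, t, hs, ht, hs0, ht0, hst⟩ :=
    Local.exists_tops (isMetricOn h p) (isFrameOn_frameAt h p) (hE p) (hK p) hy
  rcases hJ with rfl | rfl
  · exact ⟨h1, h1t, s, hs, hs0, by linarith⟩
  · exact ⟨h2, h2t, t, ht, ht0, by linarith⟩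

omit hor [IsManifold (modelWithCornersSelf ℝ Euc4) ∞ X] in
theorem top_spec {J : Fin 3 → M4} (hJ : IsHalf J) (x : X) :
    Spectral.IsTop (weylAt h J x) (top h J x) := by
  obtain ⟨-, -, t, ht, -⟩ :=
    wB_top h hE hK hJ x ((chartAt Euc4 x).map_source (mem_chart_source Euc4 x))
  exact Classical.epsilon_spec ⟨t, ht⟩

/-- The top in any chart. -/
theorem top_chart {J : Fin 3 → M4} (hJ : IsHalf J) {p x : X}
    (hp : x ∈ (chartAt Euc4 p).source) :
    Spectral.IsTop (Local.wB J (G p) (frameAt h p) (chartAt Euc4 p x)) (top h J x) := by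
  obtain ⟨c, hc, e⟩ := weylAt_conj h hor hJ hp
  have := top_spec h hE hK hJ x
  rwa [e, isTop_conj hc] at this

omit hor [IsManifold (modelWithCornersSelf ℝ Euc4) ∞ X] in
theorem top_bounds (x : X) :
    0 ≤ top h Jp x ∧ 0 ≤ top h Jm x ∧ top h Jp x + top h Jm x ≤ 2 := by
  obtain ⟨s, t, hs, ht, hs0, ht0, hst⟩ := Local.exists_tops (isMetricOn h x)
    (isFrameOn_frameAt h x) (hE x) (hK x)
    ((chartAt Euc4 x).map_source (mem_chart_source Euc4 x))
  rw [← isTop_unique hs (top_spec h hE hK (.inl rfl) x),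
    ← isTop_unique ht (top_spec h hE hK (.inr rfl) x)]
  exact ⟨hs0, ht0, hst⟩

theorem smooth_spec {a : ℝ} (ha : 4 < a) (k : ℕ) {J : Fin 3 → M4} (hJ : IsHalf J) :
    Smooth (spec h a k J) := by
  intro p
  refine ContDiffOn.congr (f := fun y => Spectral.F a k (Local.wB J (G p) (frameAt h p) y)) ?_
    fun y hy => rd_spec h hor a k hJ p hy
  intro y hy
  obtain ⟨hs, htr, t, ht, -, ht2⟩ := wB_top h hE hK hJ p hy
  refine (Spectral.contDiffAt_F (fun i j => ?_) (Spectral.trPow_pos hs
    (Spectral.posDef_shift hs htr ht (by linarith)))).contDiffWithinAt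
  exact (Local.smooth_wB (isMetricOn h p) (isFrameOn_frameAt h p) i j).contDiffAt
    ((chartAt Euc4 p).open_target.mem_nhds hy)

omit hor [IsManifold (modelWithCornersSelf ℝ Euc4) ∞ X] in
theorem spec_bounds {a : ℝ} (ha : 4 < a) {k : ℕ} (hk : 1 ≤ k) {J : Fin 3 → M4} (hJ : IsHalf J)
    (x : X) : top h J x ≤ spec h a k J x ∧
      spec h a k J x ≤ top h J x + (a + top h J x) * (3 ^ (1 / k : ℝ) - 1) := by
  have hy := (chartAt Euc4 x).map_source (mem_chart_source Euc4 x)
  obtain ⟨hs, htr, t, ht, -, ht2⟩ := wB_top h hE hK hJ x hy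
  have e := isTop_unique ht (top_spec h hE hK hJ x)
  subst e
  have hpd := Spectral.posDef_shift (a := a) hs htr ht (by linarith)
  exact ⟨Spectral.isTop_le_F hk hs hpd ht, Spectral.F_le_isTop hk hs hpd ht⟩

end

end Vale.Agent.P211.Main
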